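import Vale.Agent.P141.H703.U4P
import Vale.Agent.P141.H944.BoxT
import Vale.Agent.P141.H204.Vec
import Vale.Agent.P141.H834.MomF

/-!
# P141, lazy split, module E2: the fourth moment of a composite with a split gauge

`u = a + r` a label valued gauge on a box `A × B`, `a ⟂ r` row by row (`a = P u`, `r = (1 - P) u`
with a projection of the label space depending on the row `x` only); `a` has small energy `τ`,
`r` has potential at most `w`.  Then
`mo4t A B C u G ≤ 1440000 d² e τ^(3/2) + 32 e³ (area of the support of r) u4T d w M`.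
-/

namespace Vale.Agent.P141.H703

noncomputable section

open scoped BigOperators
open Vale.Agent.P141.PL.H315 (avg avg_nonneg Tri atm e12 e13 e23)
open Vale.Agent.P141.H550 (avg_prod avg_comm avg_const avg_congr avg_mono avg_mul_left
  avg_mul_right avg_add abs_avg_le abs_avg_le_of avg_mul_sq_le)
open Vale.Agent.P141.H922 (n2 n4 nN n2_nonneg n4_nonneg nN_nonneg n2_sq n4_four)
open Vale.Agent.P141.H944 (UnifB)
open Vale.Agent.P141.H834 (UnifP LineB gf)
open Vale.Agent.P141.H769 (mo4 sl g2)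
open Vale.Agent.P141.H204 (mo4t mo4t_le vn vn_sq)

section supp

variable {V : Type*} [NormedAddCommGroup V] [InnerProductSpace ℝ V]

/-- **(U4) in the pair weight**, sum over the columns, no flatness: the mass is replaced by the
area of the support; `M` bounds the support of every column. -/
theorem u4P_supp {d L : ℝ} (hd : 0 < d) (hL : 1 ≤ L) {A B C : Finset ℤ}
    {G : ℤ × ℤ × ℤ → ℝ} (hU : UnifB d A B C G)
    (h1 : ∀ y ∈ B, ∀ z ∈ C, (avg A fun x => G (x, y, z) ^ 2) ≤ L)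
    (h2 : ∀ x ∈ A, ∀ z ∈ C, (avg B fun y => G (x, y, z) ^ 2) ≤ L)
    (h3 : ∀ x ∈ A, ∀ y ∈ B, (avg C fun z => G (x, y, z) ^ 2) ≤ L)
    (u : ℤ → ℤ → V) (hu : ∀ x ∈ A, ∀ y ∈ B, ‖u x y‖ ≤ 1) {w M : ℝ} (hw : 0 ≤ w)
    (hop : ∀ x ∈ A, ∀ v : V, (avg B fun y => (inner ℝ (u x y) v) ^ 2) ≤ w * ‖v‖ ^ 2)
    (hM : ∀ c ∈ B, avg A (sup1 u c) ≤ M) :
    (avg B fun c => avg B fun y => avg C fun z =>
      (avg A fun x => inner ℝ (u x y) (u x c) * (G (x, y, z) * G (x, c, z))) ^ 2) ≤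
      16 * L ^ 3 * u4T d w M * avg B fun c => avg A (sup1 u c) := by
  rw [← avg_mul_left]
  refine avg_mono fun c hc => (u4P_vec hd hL hU h1 h2 h3 u hu hw hop hc).trans ?_
  set m : ℝ := avg A (sup1 u c) with hm
  have hm0 : 0 ≤ m := avg_nonneg fun x _ => by unfold sup1; split_ifs <;> norm_num
  have hL0 : 0 ≤ L := by linarith
  have hmM : m ≤ M := hM c hc
  have hM0 : 0 ≤ M := hm0.trans hmM
  have hE0 : 0 ≤ avg A fun x => ‖u x c‖ ^ 2 := avg_nonneg fun _ _ => sq_nonneg _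
  have hE : (avg A fun x => ‖u x c‖ ^ 2) ≤ m := by
    rw [hm]
    refine avg_mono fun x hx => ?_
    unfold sup1
    split_ifs with h0
    · rw [h0]; norm_num
    · exact pow_le_one₀ (norm_nonneg _) (hu x hx c hc)
  have hmono : col3 d (w * m) (L * avg A fun x => ‖u x c‖ ^ 2) ≤
      col3 d (w * (1 * m)) (L * m) := by
    unfold col3
    rw [one_mul]
    have hLE : 0 ≤ L * avg A fun x => ‖u x c‖ ^ 2 := mul_nonneg hL0 hE0
    have hLm : L * (avg A fun x => ‖u x c‖ ^ 2) ≤ L * m := mul_le_mul_of_nonneg_left hE hL0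
    have hwm : 0 ≤ w * m := mul_nonneg hw hm0
    have g : ∀ r : ℝ, 0 ≤ r → (L * avg A fun x => ‖u x c‖ ^ 2) ^ r ≤ (L * m) ^ r :=
      fun r hr => Real.rpow_le_rpow hLE hLm hr
    have g1 := g (5 / 6) (by norm_num)
    have g2 := g (4 / 5) (by norm_num)
    have g3 := g (2 / 3) (by norm_num)
    gcongr
  have q1 := pow_pair (w := w) (L := L) (K := 1) hw hL le_rfl hm0 hmM (r := 7 / 12) (s := 5 / 6)
    (by norm_num) (by norm_num) (by norm_num) (by norm_num)
  have q2 := pow_pair (w := w) (L := L) (K := 1) hw hL le_rfl hm0 hmM (r := 3 / 5) (s := 4 / 5)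
    (by norm_num) (by norm_num) (by norm_num) (by norm_num)
  have q3 := pow_pair (w := w) (L := L) (K := 1) hw hL le_rfl hm0 hmM (r := 2 / 3) (s := 2 / 3)
    (by norm_num) (by norm_num) (by norm_num) (by norm_num)
  rw [show (7 / 12 : ℝ) + 5 / 6 - 1 = 5 / 12 by norm_num] at q1
  rw [show (3 / 5 : ℝ) + 4 / 5 - 1 = 2 / 5 by norm_num] at q2
  rw [show (2 / 3 : ℝ) + 2 / 3 - 1 = 1 / 3 by norm_num] at q3
  have hfin : col3 d (w * (1 * m)) (L * m) ≤ L * u4T d w M * m := by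
    unfold col3 u4T
    have d1 : 0 ≤ d ^ (5 / 3 : ℝ) := Real.rpow_nonneg hd.le _
    have d2 : 0 ≤ d ^ (8 / 5 : ℝ) := Real.rpow_nonneg hd.le _
    have d3 : 0 ≤ d ^ (4 / 3 : ℝ) := Real.rpow_nonneg hd.le _
    have r1 := mul_le_mul_of_nonneg_left q1 d1
    have r2 := mul_le_mul_of_nonneg_left q2 d2
    have r3 := mul_le_mul_of_nonneg_left q3 d3
    calc _ ≤ d ^ (5 / 3 : ℝ) * (1 * L * (w ^ (7 / 12 : ℝ) * M ^ (5 / 12 : ℝ)) * m) +
          d ^ (8 / 5 : ℝ) * (1 * L * (w ^ (3 / 5 : ℝ) * M ^ (2 / 5 : ℝ)) * m) +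
          d ^ (4 / 3 : ℝ) * (1 * L * (w ^ (2 / 3 : ℝ) * M ^ (1 / 3 : ℝ)) * m) :=
          add_le_add (add_le_add r1 r2) r3
      _ = _ := by ring
  calc 16 * L ^ 2 * col3 d (w * m) (L * avg A fun x => ‖u x c‖ ^ 2)
      ≤ 16 * L ^ 2 * (L * u4T d w M * m) :=
        mul_le_mul_of_nonneg_left (hmono.trans hfin) (by positivity)
    _ = _ := by ring

end supp

section labels

variable {κ : Type*} [Fintype κ] [DecidableEq κ]

/-- the gauge as a function with values in the Euclidean space of the labels -/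
def euc (u : κ → ℤ → ℤ → ℝ) (x y : ℤ) : EuclideanSpace ℝ κ := WithLp.toLp 2 fun l => u l x y

omit [DecidableEq κ] in
theorem inner_euc (u v : κ → ℤ → ℤ → ℝ) (x y y' : ℤ) :
    inner ℝ (euc u x y) (euc v x y') = ∑ l, u l x y * v l x y' := by
  rw [PiLp.inner_apply]
  exact Finset.sum_congr rfl fun l _ => by simp [euc, mul_comm]

omit [DecidableEq κ] in
theorem norm_euc_sq (u : κ → ℤ → ℤ → ℝ) (x y : ℤ) :
    ‖euc u x y‖ ^ 2 = ∑ l, u l x y ^ 2 := by
  rw [← real_inner_self_eq_norm_sq, inner_euc]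
  exact Finset.sum_congr rfl fun l _ => (sq _).symm

omit [DecidableEq κ] in
/-- the moment of the labels on the first vertex in the letters of `u4P` -/
theorem mo4t_eq (A B C : Finset ℤ) (u : κ → ℤ → ℤ → ℝ) (G : ℤ × ℤ × ℤ → ℝ) :
    mo4t A B C u G = avg B fun c => avg B fun y => avg C fun z =>
      (avg A fun x => inner ℝ (euc u x y) (euc u x c) * (G (x, y, z) * G (x, c, z))) ^ 2 := by
  unfold mo4t
  have e1 : ∀ z y y', (∑ l, avg A fun x => sl (u l) G z x y * sl (u l) G z x y') =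
      avg A fun x => inner ℝ (euc u x y) (euc u x y') * (G (x, y, z) * G (x, y', z)) := by
    intro z y y'
    rw [← H550.avg_sum]
    refine avg_congr fun x _ => ?_
    rw [inner_euc, Finset.sum_mul]
    exact Finset.sum_congr rfl fun l _ => by unfold H769.sl; ring
  rw [avg_comm B B, avg_comm C B]
  refine avg_congr fun y _ => ?_
  rw [avg_comm C B]
  refine avg_congr fun y' _ => avg_congr fun z _ => ?_
  rw [e1]

omit [DecidableEq κ] in
theorem mo4t_nonneg (A B C : Finset ℤ) (u : κ → ℤ → ℤ → ℝ) (G : ℤ × ℤ × ℤ → ℝ) :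
    0 ≤ mo4t A B C u G :=
  avg_nonneg fun _ _ => avg_nonneg fun _ _ => avg_nonneg fun _ _ => sq_nonneg _

omit [DecidableEq κ] in
/-- the Gram kernels add if the two parts are orthogonal row by row -/
theorem mo4t_orth {A B C : Finset ℤ} {u a r : κ → ℤ → ℤ → ℝ} (G : ℤ × ℤ × ℤ → ℝ)
    (hsum : ∀ l, ∀ x ∈ A, ∀ y ∈ B, u l x y = a l x y + r l x y)
    (horth : ∀ x ∈ A, ∀ y ∈ B, ∀ y' ∈ B, ∑ l, a l x y * r l x y' = 0) :
    mo4t A B C u G ≤ 2 * (mo4t A B C a G + mo4t A B C r G) := by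
  unfold mo4t
  rw [← avg_add, ← avg_mul_left]
  refine avg_mono fun z _ => ?_
  rw [← avg_add, ← avg_mul_left]
  refine avg_mono fun y hy => ?_
  rw [← avg_add, ← avg_mul_left]
  refine avg_mono fun y' hy' => ?_
  have e1 : (∑ l, avg A fun x => sl (u l) G z x y * sl (u l) G z x y') =
      (∑ l, avg A fun x => sl (a l) G z x y * sl (a l) G z x y') +
        ∑ l, avg A fun x => sl (r l) G z x y * sl (r l) G z x y' := by
    rw [← H550.avg_sum, ← H550.avg_sum, ← H550.avg_sum, ← avg_add]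
    refine avg_congr fun x hx => ?_
    have o1 := horth x hx y hy y' hy'
    have o2 := horth x hx y' hy' y hy
    have e2 : ∑ l, sl (u l) G z x y * sl (u l) G z x y' =
        (∑ l, sl (a l) G z x y * sl (a l) G z x y') +
          (∑ l, sl (r l) G z x y * sl (r l) G z x y') +
          (∑ l, a l x y * r l x y') * (G (x, y, z) * G (x, y', z)) +
          (∑ l, a l x y' * r l x y) * (G (x, y, z) * G (x, y', z)) := by
      rw [Finset.sum_mul, Finset.sum_mul, ← Finset.sum_add_distrib, ← Finset.sum_add_distrib,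
        ← Finset.sum_add_distrib]
      refine Finset.sum_congr rfl fun l _ => ?_
      unfold H769.sl
      rw [hsum l x hx y hy, hsum l x hx y' hy']
      ring
    rw [e2, o1, o2]
    ring
  rw [e1]
  nlinarith [sq_nonneg ((∑ l, avg A fun x => sl (a l) G z x y * sl (a l) G z x y') -
    ∑ l, avg A fun x => sl (r l) G z x y * sl (r l) G z x y')]

/-- **E2, the part of small energy**: label signs and the scalar S4 lemma. -/
theorem mo4t_small {d e τ : ℝ} (hd : 0 ≤ d) (he : 0 ≤ e) {A B C : Finset ℤ} (hA : A.Nonempty)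
    (hB : B.Nonempty) {G : ℤ × ℤ × ℤ → ℝ} (hU : UnifP d A B C G) (hL : LineB e A B C G)
    (a : κ → ℤ → ℤ → ℝ) (ha : ∀ x ∈ A, ∀ y ∈ B, ∑ l, a l x y ^ 2 ≤ 1)
    (hτ : (avg A fun x => avg B fun y => ∑ l, a l x y ^ 2) ≤ τ) :
    mo4t A B C a G ≤ 720000 * (d ^ 2 * e) * (τ * √τ) := by
  have h := mo4t_le (A := A) (B := B) (C := C) (G := G) (k := 240000 * (d ^ 2 * e))
    (by positivity) (fun a => by
      refine (H834.mo4_le hd he hA hB hU hL a).trans (le_of_eq ?_)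
      ring) a
  refine h.trans ?_
  have hτ0 : 0 ≤ τ := le_trans (avg_nonneg fun _ _ => avg_nonneg fun _ _ =>
    Finset.sum_nonneg fun _ _ => sq_nonneg _) hτ
  have b2 : n2 (A ×ˢ B) (vn fun l r => a l r.1 r.2) ^ 2 ≤ τ := by
    rw [n2_sq, avg_prod]
    refine le_trans (le_of_eq ?_) hτ
    exact avg_congr fun x _ => avg_congr fun y _ => vn_sq _ _
  have b4 : n4 (A ×ˢ B) (vn fun l r => a l r.1 r.2) ^ 2 ≤ √τ := by
    refine Real.le_sqrt_of_sq_le ?_
    rw [← pow_mul, n4_four, avg_prod]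
    refine le_trans (avg_mono fun x hx => avg_mono fun y hy => ?_) hτ
    have e1 : vn (fun l r => a l r.1 r.2) (x, y) ^ 2 = ∑ l, a l x y ^ 2 := vn_sq _ _
    have h0 : 0 ≤ ∑ l, a l x y ^ 2 := Finset.sum_nonneg fun _ _ => sq_nonneg _
    calc vn (fun l r => a l r.1 r.2) (x, y) ^ 4
        = (vn (fun l r => a l r.1 r.2) (x, y) ^ 2) * (vn (fun l r => a l r.1 r.2) (x, y) ^ 2) := by
          ring
      _ = (∑ l, a l x y ^ 2) * ∑ l, a l x y ^ 2 := by rw [e1]
      _ ≤ 1 * ∑ l, a l x y ^ 2 := mul_le_mul_of_nonneg_right (ha x hx y hy) h0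
      _ = _ := one_mul _
  calc 3 * (240000 * (d ^ 2 * e)) * (n2 (A ×ˢ B) (vn fun l r => a l r.1 r.2) ^ 2 *
        n4 (A ×ˢ B) (vn fun l r => a l r.1 r.2) ^ 2)
      ≤ 3 * (240000 * (d ^ 2 * e)) * (τ * √τ) :=
        mul_le_mul_of_nonneg_left (mul_le_mul b2 b4 (sq_nonneg _) hτ0) (by positivity)
    _ = _ := by ring

omit [DecidableEq κ] in
/-- **E2, the part of small potential.** -/
theorem mo4t_pot {d e w M : ℝ} (hd : 0 < d) (he : 1 ≤ e) {A B C : Finset ℤ}
    {G : ℤ × ℤ × ℤ → ℝ} (hU : UnifP d A B C G) (hL : LineB e A B C G)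
    (r : κ → ℤ → ℤ → ℝ) (hr : ∀ x ∈ A, ∀ y ∈ B, ∑ l, r l x y ^ 2 ≤ 1) (hw : 0 ≤ w)
    (hop : ∀ x ∈ A, ∀ v : κ → ℝ, (avg B fun y => (∑ l, r l x y * v l) ^ 2) ≤ w * ∑ l, v l ^ 2)
    (hM : ∀ c ∈ B, avg A (sup1 (euc r) c) ≤ M) :
    mo4t A B C r G ≤ 16 * e ^ 3 * u4T d w M * avg B fun c => avg A (sup1 (euc r) c) := by
  rw [mo4t_eq]
  refine u4P_supp hd he (H944.unifP_iff.1 hU) hL.l1 hL.l2 hL.l3 (euc r) ?_ hw ?_ hM
  · intro x hx y hy
    have h1 := norm_euc_sq r x y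
    have h2 := hr x hx y hy
    rw [← h1] at h2
    exact (sq_le_one_iff₀ (norm_nonneg _)).1 h2
  · intro x hx v
    have h1 := hop x hx (fun l => v l)
    have e1 : ∀ y, inner ℝ (euc r x y) v = ∑ l, r l x y * v l := by
      intro y
      rw [PiLp.inner_apply]
      exact Finset.sum_congr rfl fun l _ => by simp [euc, mul_comm]
    have e2 : ‖v‖ ^ 2 = ∑ l, v l ^ 2 := by
      rw [EuclideanSpace.norm_sq_eq]
      exact Finset.sum_congr rfl fun l _ => by rw [Real.norm_eq_abs, sq_abs]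
    rw [e2]
    refine le_trans (le_of_eq ?_) h1
    exact avg_congr fun y _ => by rw [e1]

/-- **E2**: the fourth moment of a composite whose gauge is split row by row into a part of energy
at most `τ` and a part of potential at most `w`. -/
theorem e2 {d e w M τ : ℝ} (hd : 0 < d) (he : 1 ≤ e) {A B C : Finset ℤ} (hA : A.Nonempty)
    (hB : B.Nonempty) {G : ℤ × ℤ × ℤ → ℝ} (hU : UnifP d A B C G) (hL : LineB e A B C G)
    {u a r : κ → ℤ → ℤ → ℝ}
    (hsum : ∀ l, ∀ x ∈ A, ∀ y ∈ B, u l x y = a l x y + r l x y)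
    (horth : ∀ x ∈ A, ∀ y ∈ B, ∀ y' ∈ B, ∑ l, a l x y * r l x y' = 0)
    (ha : ∀ x ∈ A, ∀ y ∈ B, ∑ l, a l x y ^ 2 ≤ 1)
    (hτ : (avg A fun x => avg B fun y => ∑ l, a l x y ^ 2) ≤ τ)
    (hr : ∀ x ∈ A, ∀ y ∈ B, ∑ l, r l x y ^ 2 ≤ 1) (hw : 0 ≤ w)
    (hop : ∀ x ∈ A, ∀ v : κ → ℝ, (avg B fun y => (∑ l, r l x y * v l) ^ 2) ≤ w * ∑ l, v l ^ 2)
    (hM : ∀ c ∈ B, avg A (sup1 (euc r) c) ≤ M) :
    mo4t A B C u G ≤ 1440000 * (d ^ 2 * e) * (τ * √τ) +
      32 * e ^ 3 * u4T d w M * avg B fun c => avg A (sup1 (euc r) c) := by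
  have h1 := mo4t_orth (C := C) G hsum horth
  have h2 := mo4t_small hd.le (by linarith) hA hB hU hL a ha hτ
  have h3 := mo4t_pot hd he hU hL r hr hw hop hM
  linarith

end labels

end

end Vale.Agent.P141.H703
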