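import Vale.Agent.P141.H703.U4H

/-!
# P141, lazy split, module E2, final form

* `mo4t_add`: S4 triangle for gauges with labels on the first vertex, constant `8`;
* `mo4t_ht`: gauges of height `≤ h` and mass `≤ m` (label signs, scalar S4 lemma);
* `mo4t_U4`: operator potential `≤ W`, column masses `≤ R`, mass `≤ m`: linear in `m`;
* `e2H`: `u = a + r`, rows orthogonal, `r` of mass `≤ τ`, `a` of potential `≤ W`.
-/

namespace Vale.Agent.P141.H703

noncomputable section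

open scoped BigOperators
open Vale.Agent.P141.PL.H315 (avg avg_nonneg Tri atm e12 e13 e23)
open Vale.Agent.P141.H550 (avg_prod avg_comm avg_const avg_congr avg_mono avg_mul_left
  avg_mul_right avg_add abs_avg_le abs_avg_le_of avg_mul_sq_le)
open Vale.Agent.P141.H922 (n2 n4 nN n2_nonneg n4_nonneg nN_nonneg n2_sq n4_four)
open Vale.Agent.P141.H944 (UnifB)
open Vale.Agent.P141.H834 (UnifP LineB gf)
open Vale.Agent.P141.H769 (mo4 sl g2)
open Vale.Agent.P141.H204 (mo4t mo4t_le vn vn_sq)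

section hs

variable {X Y : Type*}

theorem hs_id (S : Finset X) (T : Finset Y) (p q : X → Y → ℝ) :
    (∑ y ∈ T, ∑ y' ∈ T, (∑ x ∈ S, p x y * q x y') ^ 2) =
      ∑ x ∈ S, ∑ x' ∈ S, (∑ y ∈ T, p x y * p x' y) * ∑ y' ∈ T, q x y' * q x' y' := by
  have e1 : ∀ y y', (∑ x ∈ S, p x y * q x y') ^ 2 =
      ∑ x ∈ S, ∑ x' ∈ S, (p x y * p x' y) * (q x y' * q x' y') := by
    intro y y'
    rw [sq, Finset.sum_mul_sum]
    exact Finset.sum_congr rfl fun x _ => Finset.sum_congr rfl fun x' _ => by ring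
  simp only [e1]
  have e2 : ∀ y ∈ T, (∑ y' ∈ T, ∑ x ∈ S, ∑ x' ∈ S, (p x y * p x' y) * (q x y' * q x' y')) =
      ∑ x ∈ S, ∑ x' ∈ S, (p x y * p x' y) * ∑ y' ∈ T, q x y' * q x' y' := by
    intro y _
    rw [Finset.sum_comm]
    refine Finset.sum_congr rfl fun x _ => ?_
    rw [Finset.sum_comm]
    exact Finset.sum_congr rfl fun x' _ => (Finset.mul_sum _ _ _).symm
  rw [Finset.sum_congr rfl e2, Finset.sum_comm]
  refine Finset.sum_congr rfl fun x _ => ?_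
  rw [Finset.sum_comm]
  exact Finset.sum_congr rfl fun x' _ => (Finset.sum_mul _ _ _).symm

theorem hs_cross (S : Finset X) (T : Finset Y) (p q : X → Y → ℝ) :
    2 * (∑ y ∈ T, ∑ y' ∈ T, (∑ x ∈ S, p x y * q x y') ^ 2) ≤
      (∑ y ∈ T, ∑ y' ∈ T, (∑ x ∈ S, p x y * p x y') ^ 2) +
        ∑ y ∈ T, ∑ y' ∈ T, (∑ x ∈ S, q x y * q x y') ^ 2 := by
  rw [hs_id S T p q, hs_id S T p p, hs_id S T q q, Finset.mul_sum, ← Finset.sum_add_distrib]
  refine Finset.sum_le_sum fun x _ => ?_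
  rw [Finset.mul_sum, ← Finset.sum_add_distrib]
  refine Finset.sum_le_sum fun x' _ => ?_
  nlinarith [sq_nonneg ((∑ y ∈ T, p x y * p x' y) - ∑ y' ∈ T, q x y' * q x' y')]

/-- the S4 triangle inequality, constant `8` -/
theorem hs_add (S : Finset X) (T : Finset Y) (p q : X → Y → ℝ) :
    (∑ y ∈ T, ∑ y' ∈ T, (∑ x ∈ S, (p x y + q x y) * (p x y' + q x y')) ^ 2) ≤
      8 * ((∑ y ∈ T, ∑ y' ∈ T, (∑ x ∈ S, p x y * p x y') ^ 2) +
        ∑ y ∈ T, ∑ y' ∈ T, (∑ x ∈ S, q x y * q x y') ^ 2) := by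
  have h1 := hs_cross S T p q
  have h2 := hs_cross S T q p
  have e1 : ∀ y y', (∑ x ∈ S, (p x y + q x y) * (p x y' + q x y')) ^ 2 ≤
      4 * ((∑ x ∈ S, p x y * p x y') ^ 2 + (∑ x ∈ S, p x y * q x y') ^ 2 +
        (∑ x ∈ S, q x y * p x y') ^ 2 + (∑ x ∈ S, q x y * q x y') ^ 2) := by
    intro y y'
    have e2 : (∑ x ∈ S, (p x y + q x y) * (p x y' + q x y')) =
        (∑ x ∈ S, p x y * p x y') + (∑ x ∈ S, p x y * q x y') +
          (∑ x ∈ S, q x y * p x y') + ∑ x ∈ S, q x y * q x y' := by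
      rw [← Finset.sum_add_distrib, ← Finset.sum_add_distrib, ← Finset.sum_add_distrib]
      exact Finset.sum_congr rfl fun x _ => by ring
    rw [e2]
    set a := ∑ x ∈ S, p x y * p x y'
    set b := ∑ x ∈ S, p x y * q x y'
    set c := ∑ x ∈ S, q x y * p x y'
    set e := ∑ x ∈ S, q x y * q x y'
    nlinarith [sq_nonneg (a - b), sq_nonneg (a - c), sq_nonneg (a - e), sq_nonneg (b - c),
      sq_nonneg (b - e), sq_nonneg (c - e)]
  have h3 : (∑ y ∈ T, ∑ y' ∈ T, (∑ x ∈ S, (p x y + q x y) * (p x y' + q x y')) ^ 2) ≤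
      ∑ y ∈ T, ∑ y' ∈ T, 4 * ((∑ x ∈ S, p x y * p x y') ^ 2 + (∑ x ∈ S, p x y * q x y') ^ 2 +
        (∑ x ∈ S, q x y * p x y') ^ 2 + (∑ x ∈ S, q x y * q x y') ^ 2) :=
    Finset.sum_le_sum fun y _ => Finset.sum_le_sum fun y' _ => e1 y y'
  refine h3.trans ?_
  have e3 : (∑ y ∈ T, ∑ y' ∈ T, 4 * ((∑ x ∈ S, p x y * p x y') ^ 2 +
        (∑ x ∈ S, p x y * q x y') ^ 2 +
        (∑ x ∈ S, q x y * p x y') ^ 2 + (∑ x ∈ S, q x y * q x y') ^ 2)) =
      4 * ((∑ y ∈ T, ∑ y' ∈ T, (∑ x ∈ S, p x y * p x y') ^ 2) +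
        (∑ y ∈ T, ∑ y' ∈ T, (∑ x ∈ S, p x y * q x y') ^ 2) +
        (∑ y ∈ T, ∑ y' ∈ T, (∑ x ∈ S, q x y * p x y') ^ 2) +
        ∑ y ∈ T, ∑ y' ∈ T, (∑ x ∈ S, q x y * q x y') ^ 2) := by
    simp only [mul_add, Finset.sum_add_distrib, Finset.mul_sum]
  rw [e3]
  linarith

end hs

section labels

variable {κ : Type*} [Fintype κ]

theorem mo4t_sum (A B C : Finset ℤ) (u : κ → ℤ → ℤ → ℝ) (G : ℤ × ℤ × ℤ → ℝ) :
    mo4t A B C u G = avg C fun z => ((B.card : ℝ)⁻¹ * ((B.card : ℝ)⁻¹ * (A.card : ℝ)⁻¹ ^ 2)) *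
      ∑ y ∈ B, ∑ y' ∈ B, (∑ x ∈ (Finset.univ : Finset κ) ×ˢ A,
        sl (u x.1) G z x.2 y * sl (u x.1) G z x.2 y') ^ 2 := by
  unfold mo4t
  refine avg_congr fun z _ => ?_
  have e1 : ∀ y y' : ℤ, (∑ l : κ, avg A fun x => sl (u l) G z x y * sl (u l) G z x y') =
      (A.card : ℝ)⁻¹ * ∑ x ∈ (Finset.univ : Finset κ) ×ˢ A,
        sl (u x.1) G z x.2 y * sl (u x.1) G z x.2 y' := by
    intro y y'
    unfold avg
    rw [← Finset.mul_sum, Finset.sum_product]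
  simp only [e1]
  unfold avg
  simp only [mul_pow, ← Finset.mul_sum]
  ring

/-- **the S4 triangle inequality** for gauges with labels, constant `8` -/
theorem mo4t_add {A B C : Finset ℤ} {u a b : κ → ℤ → ℤ → ℝ} (G : ℤ × ℤ × ℤ → ℝ)
    (hsum : ∀ l, ∀ x ∈ A, ∀ y ∈ B, u l x y = a l x y + b l x y) :
    mo4t A B C u G ≤ 8 * (mo4t A B C a G + mo4t A B C b G) := by
  rw [mo4t_sum, mo4t_sum, mo4t_sum, ← avg_add, ← avg_mul_left]
  refine avg_mono fun z _ => ?_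
  have h := hs_add ((Finset.univ : Finset κ) ×ˢ A) B
    (fun x y => sl (a x.1) G z x.2 y) (fun x y => sl (b x.1) G z x.2 y)
  have e1 : (∑ y ∈ B, ∑ y' ∈ B, (∑ x ∈ (Finset.univ : Finset κ) ×ˢ A,
        sl (u x.1) G z x.2 y * sl (u x.1) G z x.2 y') ^ 2) =
      ∑ y ∈ B, ∑ y' ∈ B, (∑ x ∈ (Finset.univ : Finset κ) ×ˢ A,
        (sl (a x.1) G z x.2 y + sl (b x.1) G z x.2 y) *
          (sl (a x.1) G z x.2 y' + sl (b x.1) G z x.2 y')) ^ 2 := by
    refine Finset.sum_congr rfl fun y hy => Finset.sum_congr rfl fun y' hy' => ?_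
    congr 1
    refine Finset.sum_congr rfl fun x hx => ?_
    have hx2 : x.2 ∈ A := (Finset.mem_product.1 hx).2
    unfold H769.sl
    rw [hsum x.1 x.2 hx2 y hy, hsum x.1 x.2 hx2 y' hy']
    ring
  rw [e1]
  have hc : 0 ≤ ((B.card : ℝ)⁻¹ * ((B.card : ℝ)⁻¹ * (A.card : ℝ)⁻¹ ^ 2)) := by positivity
  calc _ ≤ ((B.card : ℝ)⁻¹ * ((B.card : ℝ)⁻¹ * (A.card : ℝ)⁻¹ ^ 2)) * _ :=
        mul_le_mul_of_nonneg_left h hc
    _ = _ := by ring

theorem mo4t_congr {A B C : Finset ℤ} {u a : κ → ℤ → ℤ → ℝ} (G : ℤ × ℤ × ℤ → ℝ)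
    (h : ∀ l, ∀ x ∈ A, ∀ y ∈ B, u l x y = a l x y) :
    mo4t A B C u G = mo4t A B C a G := by
  unfold mo4t
  refine avg_congr fun z _ => avg_congr fun y hy => avg_congr fun y' hy' => ?_
  congr 1
  refine Finset.sum_congr rfl fun l _ => avg_congr fun x hx => ?_
  unfold H769.sl
  rw [h l x hx y hy, h l x hx y' hy']

variable [DecidableEq κ]

/-- **gauges of height `≤ h` and mass `≤ m`** -/
theorem mo4t_ht {d e m h : ℝ} (hd : 0 ≤ d) (he : 0 ≤ e) (hh : 0 ≤ h) {A B C : Finset ℤ}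
    (hA : A.Nonempty) (hB : B.Nonempty) {G : ℤ × ℤ × ℤ → ℝ} (hU : UnifP d A B C G)
    (hL : LineB e A B C G) (a : κ → ℤ → ℤ → ℝ)
    (ha : ∀ x ∈ A, ∀ y ∈ B, ∑ l, a l x y ^ 2 ≤ h ^ 2)
    (hm : (avg A fun x => avg B fun y => ∑ l, a l x y ^ 2) ≤ m) :
    mo4t A B C a G ≤ 720000 * (d ^ 2 * e) * (h * (m * √m)) := by
  have h0 := mo4t_le (A := A) (B := B) (C := C) (G := G) (k := 240000 * (d ^ 2 * e))
    (by positivity) (fun a => by
      refine (H834.mo4_le hd he hA hB hU hL a).trans (le_of_eq ?_)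
      ring) a
  refine h0.trans ?_
  have hm0 : 0 ≤ m := le_trans (avg_nonneg fun _ _ => avg_nonneg fun _ _ =>
    Finset.sum_nonneg fun _ _ => sq_nonneg _) hm
  have b2 : n2 (A ×ˢ B) (vn fun l r => a l r.1 r.2) ^ 2 ≤ m := by
    rw [n2_sq, avg_prod]
    refine le_trans (le_of_eq ?_) hm
    exact avg_congr fun x _ => avg_congr fun y _ => vn_sq _ _
  have b4 : n4 (A ×ˢ B) (vn fun l r => a l r.1 r.2) ^ 2 ≤ h * √m := by
    have e0 : h * √m = √(h ^ 2 * m) := by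
      rw [Real.sqrt_mul (sq_nonneg h), Real.sqrt_sq hh]
    rw [e0]
    refine Real.le_sqrt_of_sq_le ?_
    rw [← pow_mul, n4_four, avg_prod]
    refine le_trans ?_ (mul_le_mul_of_nonneg_left hm (sq_nonneg h))
    rw [← avg_mul_left]
    refine avg_mono fun x hx => ?_
    rw [← avg_mul_left]
    refine avg_mono fun y hy => ?_
    have e1 : vn (fun l r => a l r.1 r.2) (x, y) ^ 2 = ∑ l, a l x y ^ 2 := vn_sq _ _
    have h0 : 0 ≤ ∑ l, a l x y ^ 2 := Finset.sum_nonneg fun _ _ => sq_nonneg _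
    calc vn (fun l r => a l r.1 r.2) (x, y) ^ 4
        = (vn (fun l r => a l r.1 r.2) (x, y) ^ 2) * (vn (fun l r => a l r.1 r.2) (x, y) ^ 2) := by
          ring
      _ = (∑ l, a l x y ^ 2) * ∑ l, a l x y ^ 2 := by rw [e1]
      _ ≤ h ^ 2 * ∑ l, a l x y ^ 2 := mul_le_mul_of_nonneg_right (ha x hx y hy) h0
  calc 3 * (240000 * (d ^ 2 * e)) * (n2 (A ×ˢ B) (vn fun l r => a l r.1 r.2) ^ 2 *
        n4 (A ×ˢ B) (vn fun l r => a l r.1 r.2) ^ 2)
      ≤ 3 * (240000 * (d ^ 2 * e)) * (m * (h * √m)) :=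
        mul_le_mul_of_nonneg_left (mul_le_mul b2 b4 (sq_nonneg _) hm0) (by positivity)
    _ = _ := by ring

/-- the factor `16 L²` comes out of the column masses -/
theorem u4E_le {d W m L R : ℝ} (hd : 0 ≤ d) (hW : 0 ≤ W) (hm : 0 ≤ m) (hL : 1 ≤ L) (hR : 0 ≤ R) :
    u4E d (W * m) (16 * L ^ 2 * R * m) ≤ 4 * L * m * u4T d W R := by
  have hL0 : 0 ≤ L := by linarith
  have h4L : (1 : ℝ) ≤ 4 * L := by linarith
  have key : ∀ r s : ℝ, 0 ≤ r → 0 ≤ s → r + s = 1 → s ≤ 1 / 2 →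
      (W * m) ^ r * (16 * L ^ 2 * R * m) ^ s ≤ 4 * L * m * (W ^ r * R ^ s) := by
    intro r s hr hs hrs hs2
    have e1 : (16 * L ^ 2 : ℝ) = (4 * L) ^ (2 : ℝ) := by
      rw [show (2 : ℝ) = ((2 : ℕ) : ℝ) by norm_num, Real.rpow_natCast]; ring
    have e2 : (16 * L ^ 2 * R * m) ^ s = (4 * L) ^ (2 * s) * R ^ s * m ^ s := by
      rw [Real.mul_rpow (by positivity) hm, Real.mul_rpow (by positivity) hR, e1,
        ← Real.rpow_mul (by linarith)]
    have e3 : (4 * L : ℝ) ^ (2 * s) ≤ 4 * L := by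
      calc (4 * L : ℝ) ^ (2 * s) ≤ (4 * L) ^ (1 : ℝ) :=
            Real.rpow_le_rpow_of_exponent_le h4L (by linarith)
        _ = 4 * L := Real.rpow_one _
    have e4 : m ^ r * m ^ s = m := by
      rcases hm.eq_or_lt with h0 | h0
      · rw [← h0]
        rcases hr.eq_or_lt with h1 | h1
        · have : s ≠ 0 := by rw [← h1] at hrs; linarith
          rw [Real.zero_rpow this, mul_zero]
        · rw [Real.zero_rpow h1.ne', zero_mul]
      · rw [← Real.rpow_add h0, hrs, Real.rpow_one]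
    rw [Real.mul_rpow hW hm, e2]
    have hp : 0 ≤ W ^ r * R ^ s * (m ^ r * m ^ s) := by positivity
    calc W ^ r * m ^ r * ((4 * L) ^ (2 * s) * R ^ s * m ^ s)
        = (4 * L) ^ (2 * s) * (W ^ r * R ^ s * (m ^ r * m ^ s)) := by ring
      _ ≤ 4 * L * (W ^ r * R ^ s * (m ^ r * m ^ s)) := mul_le_mul_of_nonneg_right e3 hp
      _ = _ := by rw [e4]; ring
  unfold u4E u4T
  have d1 : 0 ≤ d ^ (5 / 3 : ℝ) := Real.rpow_nonneg hd _
  have d2 : 0 ≤ d ^ (8 / 5 : ℝ) := Real.rpow_nonneg hd _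
  have d3 : 0 ≤ d ^ (4 / 3 : ℝ) := Real.rpow_nonneg hd _
  have k1 := mul_le_mul_of_nonneg_left
    (key (7 / 12) (5 / 12) (by norm_num) (by norm_num) (by norm_num) (by norm_num)) d1
  have k2 := mul_le_mul_of_nonneg_left
    (key (3 / 5) (2 / 5) (by norm_num) (by norm_num) (by norm_num) (by norm_num)) d2
  have k3 := mul_le_mul_of_nonneg_left
    (key (2 / 3) (1 / 3) (by norm_num) (by norm_num) (by norm_num) (by norm_num)) d3
  nlinarith [k1, k2, k3]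

omit [DecidableEq κ] in
theorem norm_euc_le {u : κ → ℤ → ℤ → ℝ} {x y : ℤ} {h : ℝ} (hh : 0 ≤ h) :
    ‖euc u x y‖ ≤ h ↔ ∑ l, u l x y ^ 2 ≤ h ^ 2 := by
  rw [← norm_euc_sq]
  exact (sq_le_sq₀ (norm_nonneg _) hh).symm

omit [DecidableEq κ] in
/-- **the part of potential `≤ W`, heights above `2^-N`**: linear in the mass `m` -/
theorem mo4t_hi {d e W R m : ℝ} (hd : 0 < d) (he : 1 ≤ e) (hW : 0 ≤ W) (hR : 0 ≤ R)
    {A B C : Finset ℤ} {G : ℤ × ℤ × ℤ → ℝ} (hU : UnifP d A B C G) (hL : LineB e A B C G)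
    (a : κ → ℤ → ℤ → ℝ) (ha : ∀ x ∈ A, ∀ y ∈ B, ∑ l, a l x y ^ 2 ≤ 1) {N : ℕ}
    (hN : ∀ x ∈ A, ∀ y ∈ B, ‖euc a x y‖ = 0 ∨ (1 / 2 : ℝ) ^ N < ‖euc a x y‖)
    (hop : ∀ x ∈ A, ∀ v : κ → ℝ, (avg B fun y => (∑ l, a l x y * v l) ^ 2) ≤ W * ∑ l, v l ^ 2)
    (hcol : ∀ y ∈ B, (avg A fun x => ∑ l, a l x y ^ 2) ≤ R)
    (hm : (avg A fun x => avg B fun y => ∑ l, a l x y ^ 2) ≤ m) :
    mo4t A B C a G ≤ 256 * N ^ 2 * e ^ 3 * (m * u4T d W R) := by
  have he0 : 0 ≤ e := by linarith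
  have hm0 : 0 ≤ m := le_trans (avg_nonneg fun _ _ => avg_nonneg fun _ _ =>
    Finset.sum_nonneg fun _ _ => sq_nonneg _) hm
  have hr : ∀ c ∈ B, rC A (euc a) c ≤ R := by
    intro c hc
    unfold rC
    refine le_trans (le_of_eq ?_) (hcol c hc)
    exact avg_congr fun x _ => norm_euc_sq a x c
  have hrm : (avg B fun c => rC A (euc a) c) ≤ m := by
    refine le_trans (le_of_eq ?_) hm
    unfold rC
    rw [avg_comm]
    exact avg_congr fun x _ => avg_congr fun y _ => norm_euc_sq a x y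
  have hec : ∀ c, eC A B (euc a) c ≤ W * rC A (euc a) c := by
    intro c
    unfold eC rC
    rw [← avg_mul_left]
    refine avg_mono fun x hx => ?_
    have h1 := hop x hx (fun l => a l x c)
    rw [norm_euc_sq]
    refine le_trans (le_of_eq ?_) h1
    exact avg_congr fun y _ => by rw [inner_euc]
  have h1 := u4H_high hd he (H944.unifP_iff.1 hU) hL.l1 hL.l2 hL.l3 (euc a)
    (fun x hx y hy => (norm_euc_le zero_le_one).2 (by rw [one_pow]; exact ha x hx y hy)) hN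
  rw [mo4t_eq]
  refine h1.trans ?_
  have h2 : (avg B fun c => eC A B (euc a) c) ≤ W * m := by
    refine (avg_mono fun c _ => hec c).trans ?_
    rw [avg_mul_left]
    exact mul_le_mul_of_nonneg_left hrm hW
  have h3 : (avg B fun c => (4 * e * rC A (euc a) c) ^ 2) ≤ 16 * e ^ 2 * R * m := by
    refine (avg_mono (g := fun c => 16 * e ^ 2 * R * rC A (euc a) c) fun c hc => ?_).trans ?_
    · have := hr c hc
      have h0 := rC_nonneg A (euc a) c
      have h5 : rC A (euc a) c * rC A (euc a) c ≤ R * rC A (euc a) c :=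
        mul_le_mul_of_nonneg_right this h0
      have h6 : 0 ≤ 16 * e ^ 2 := by positivity
      calc (4 * e * rC A (euc a) c) ^ 2 = 16 * e ^ 2 * (rC A (euc a) c * rC A (euc a) c) := by ring
        _ ≤ 16 * e ^ 2 * (R * rC A (euc a) c) := mul_le_mul_of_nonneg_left h5 h6
        _ = _ := by ring
    · rw [avg_mul_left]
      exact mul_le_mul_of_nonneg_left hrm (by positivity)
  have hE0 : 0 ≤ avg B fun c => eC A B (euc a) c := avg_nonneg fun c _ => eC_nonneg A B _ c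
  have hR0 : 0 ≤ avg B fun c => (4 * e * rC A (euc a) c) ^ 2 := avg_nonneg fun c _ => sq_nonneg _
  have h4 : u4E d (avg B fun c => eC A B (euc a) c) (avg B fun c => (4 * e * rC A (euc a) c) ^ 2) ≤
      u4E d (W * m) (16 * e ^ 2 * R * m) := by
    unfold u4E
    gcongr
  have h5 := u4E_le (m := m) hd.le hW hm0 he hR
  calc 64 * (N : ℝ) ^ 2 * e ^ 2 * u4E d (avg B fun c => eC A B (euc a) c)
        (avg B fun c => (4 * e * rC A (euc a) c) ^ 2)
      ≤ 64 * (N : ℝ) ^ 2 * e ^ 2 * (4 * e * m * u4T d W R) :=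
        mul_le_mul_of_nonneg_left (h4.trans h5) (by positivity)
    _ = _ := by ring

/-- **(U4) for a gauge of potential `≤ W`, column masses `≤ R`, mass `≤ m`**, all heights. -/
theorem mo4t_U4 {d e W R m : ℝ} (hd : 0 < d) (he : 1 ≤ e) (hW : 0 ≤ W) (hR : 0 ≤ R)
    {A B C : Finset ℤ} (hA : A.Nonempty) (hB : B.Nonempty) {G : ℤ × ℤ × ℤ → ℝ}
    (hU : UnifP d A B C G) (hL : LineB e A B C G)
    (a : κ → ℤ → ℤ → ℝ) (ha : ∀ x ∈ A, ∀ y ∈ B, ∑ l, a l x y ^ 2 ≤ 1)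
    (hop : ∀ x ∈ A, ∀ v : κ → ℝ, (avg B fun y => (∑ l, a l x y * v l) ^ 2) ≤ W * ∑ l, v l ^ 2)
    (hcol : ∀ y ∈ B, (avg A fun x => ∑ l, a l x y ^ 2) ≤ R)
    (hm : (avg A fun x => avg B fun y => ∑ l, a l x y ^ 2) ≤ m) (N : ℕ) :
    mo4t A B C a G ≤ 5760000 * (d ^ 2 * e) * ((1 / 2) ^ N * (m * √m)) +
      2048 * N ^ 2 * e ^ 3 * (m * u4T d W R) := by
  classical
  set hi : κ → ℤ → ℤ → ℝ := fun l x y => if (1 / 2 : ℝ) ^ N < ‖euc a x y‖ then a l x y else 0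
    with hhi
  set lo : κ → ℤ → ℤ → ℝ := fun l x y => if (1 / 2 : ℝ) ^ N < ‖euc a x y‖ then 0 else a l x y
    with hlo
  have hh0 : (0 : ℝ) ≤ (1 / 2) ^ N := by positivity
  have hle : ∀ x y, ∑ l, hi l x y ^ 2 ≤ ∑ l, a l x y ^ 2 := by
    intro x y
    refine Finset.sum_le_sum fun l _ => ?_
    simp only [hhi]
    split_ifs
    · exact le_rfl
    · rw [zero_pow two_ne_zero]; exact sq_nonneg _
  have hle' : ∀ x y, ∑ l, lo l x y ^ 2 ≤ ∑ l, a l x y ^ 2 := by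
    intro x y
    refine Finset.sum_le_sum fun l _ => ?_
    simp only [hlo]
    split_ifs
    · rw [zero_pow two_ne_zero]; exact sq_nonneg _
    · exact le_rfl
  have h1 : mo4t A B C a G ≤ 8 * (mo4t A B C lo G + mo4t A B C hi G) := by
    refine mo4t_add G fun l x _ y _ => ?_
    simp only [hhi, hlo]
    split_ifs <;> ring
  have h2 : mo4t A B C lo G ≤ 720000 * (d ^ 2 * e) * ((1 / 2) ^ N * (m * √m)) := by
    refine mo4t_ht hd.le (by linarith) hh0 hA hB hU hL lo ?_ ?_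
    · intro x _ y _
      by_cases h : (1 / 2 : ℝ) ^ N < ‖euc a x y‖
      · have e0 : ∑ l, lo l x y ^ 2 = 0 :=
          Finset.sum_eq_zero fun l _ => by simp only [hlo]; rw [if_pos h]; norm_num
        rw [e0]; positivity
      · exact (hle' x y).trans ((norm_euc_le hh0).1 (not_lt.1 h))
    · exact (avg_mono fun x _ => avg_mono fun y _ => hle' x y).trans hm
  have h3 : mo4t A B C hi G ≤ 256 * N ^ 2 * e ^ 3 * (m * u4T d W R) := by
    refine mo4t_hi hd he hW hR hU hL hi (fun x hx y hy => (hle x y).trans (ha x hx y hy)) ?_ ?_ ?_ ?_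
    · intro x _ y _
      by_cases h : (1 / 2 : ℝ) ^ N < ‖euc a x y‖
      · right
        have e0 : euc hi x y = euc a x y := by
          unfold euc
          congr 1
          funext l
          simp only [hhi]
          exact if_pos h
        rw [e0]; exact h
      · left
        have e0 : euc hi x y = 0 := by
          ext l
          simp only [euc, hhi]
          exact if_neg h
        rw [e0, norm_zero]
    · intro x hx v
      refine le_trans (avg_mono fun y _ => ?_) (hop x hx v)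
      by_cases h : (1 / 2 : ℝ) ^ N < ‖euc a x y‖
      · refine le_of_eq ?_
        congr 1
        exact Finset.sum_congr rfl fun l _ => by simp only [hhi]; rw [if_pos h]
      · have e0 : (∑ l, hi l x y * v l) = 0 :=
          Finset.sum_eq_zero fun l _ => by simp only [hhi]; rw [if_neg h, zero_mul]
        rw [e0, zero_pow two_ne_zero]; exact sq_nonneg _
    · exact fun y hy => (avg_mono fun x _ => hle x y).trans (hcol y hy)
    · exact (avg_mono fun x _ => avg_mono fun y _ => hle x y).trans hm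
  calc mo4t A B C a G ≤ 8 * (mo4t A B C lo G + mo4t A B C hi G) := h1
    _ ≤ 8 * (720000 * (d ^ 2 * e) * ((1 / 2) ^ N * (m * √m)) +
        256 * N ^ 2 * e ^ 3 * (m * u4T d W R)) :=
        mul_le_mul_of_nonneg_left (add_le_add h2 h3) (by norm_num)
    _ = _ := by ring

/-- **E2, energy form**: `u = a + r` with orthogonal rows, `r` of mass at most `τ`, `a` of mass at
most `m`, potential at most `W`, column masses at most `R`. -/
theorem e2H {d e W R m τ : ℝ} (hd : 0 < d) (he : 1 ≤ e) (hW : 0 ≤ W) (hR : 0 ≤ R)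
    {A B C : Finset ℤ} (hA : A.Nonempty) (hB : B.Nonempty) {G : ℤ × ℤ × ℤ → ℝ}
    (hU : UnifP d A B C G) (hL : LineB e A B C G) {u a r : κ → ℤ → ℤ → ℝ}
    (hsum : ∀ l, ∀ x ∈ A, ∀ y ∈ B, u l x y = a l x y + r l x y)
    (hr : ∀ x ∈ A, ∀ y ∈ B, ∑ l, r l x y ^ 2 ≤ 1)
    (hτ : (avg A fun x => avg B fun y => ∑ l, r l x y ^ 2) ≤ τ)
    (ha : ∀ x ∈ A, ∀ y ∈ B, ∑ l, a l x y ^ 2 ≤ 1)
    (hop : ∀ x ∈ A, ∀ v : κ → ℝ, (avg B fun y => (∑ l, a l x y * v l) ^ 2) ≤ W * ∑ l, v l ^ 2)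
    (hcol : ∀ y ∈ B, (avg A fun x => ∑ l, a l x y ^ 2) ≤ R)
    (hm : (avg A fun x => avg B fun y => ∑ l, a l x y ^ 2) ≤ m) (N : ℕ) :
    mo4t A B C u G ≤ 5760000 * (d ^ 2 * e) * (τ * √τ) +
      46080000 * (d ^ 2 * e) * ((1 / 2) ^ N * (m * √m)) +
      16384 * N ^ 2 * e ^ 3 * (m * u4T d W R) := by
  have h1 := mo4t_add (C := C) G hsum
  have h2 := mo4t_small hd.le (by linarith) hA hB hU hL r hr hτ
  have h3 := mo4t_U4 hd he hW hR hA hB hU hL a ha hop hcol hm N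
  linarith

end labels

end

end Vale.Agent.P141.H703
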