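import Vale.Agent.P141.H703.E2

/-!
# P141, scale-invariant version: (U4) with Hilbert–Schmidt potentials and all heights

`u` a label valued gauge with `|u| ≤ 1` on a box `A × B`, `G` uniform against the pair weight.
`eC u c = avg_{x, y} ⟪u x y, u x c⟫²` (the potential seen by the column `c`, Hilbert–Schmidt form),
`rC u c = avg_x |u x c|²`.  The fourth moment `mo4t A B C u G` is bounded by
`N² L³ Σ d^a (avg eC)^r (avg rC²)^(1-r)` (three terms) plus the part of `u` of height at most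
`2^-N`, which is small by the scalar S4 lemma.
-/

namespace Vale.Agent.P141.H703

noncomputable section

open scoped BigOperators
open Vale.Agent.P141.PL.H315 (avg avg_nonneg Tri atm e12 e13 e23)
open Vale.Agent.P141.H550 (avg_prod avg_comm avg_const avg_congr avg_mono avg_mul_left
  avg_mul_right avg_add abs_avg_le abs_avg_le_of avg_mul_sq_le)
open Vale.Agent.P141.H922 (n2 n4 nN n2_nonneg n4_nonneg nN_nonneg n2_sq n4_four)
open Vale.Agent.P141.H944 (UnifB)
open Vale.Agent.P141.H834 (UnifP LineB gf)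
open Vale.Agent.P141.H769 (mo4 sl g2)
open Vale.Agent.P141.H204 (mo4t mo4t_le vn vn_sq)

/-! ### Homogeneity of `col3` -/

theorem pow_hom {h r s : ℝ} (hh : 0 < h) (hrs : 4 * r + 2 * s = 4) :
    (h ^ 4) ^ r * (h ^ 2) ^ s = h ^ 4 := by
  have e1 : ((h ^ 4 : ℝ)) ^ r = h ^ (4 * r) := by
    rw [show (h ^ 4 : ℝ) = h ^ (4 : ℝ) by norm_cast, ← Real.rpow_mul hh.le]
  have e2 : ((h ^ 2 : ℝ)) ^ s = h ^ (2 * s) := by
    rw [show (h ^ 2 : ℝ) = h ^ (2 : ℝ) by norm_cast, ← Real.rpow_mul hh.le]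
  rw [e1, e2, ← Real.rpow_add hh, hrs]
  norm_cast

theorem term_hom {h n E r s : ℝ} (hh : 0 < h) (hn : 0 ≤ n) (hE : 0 ≤ E)
    (hrs : 4 * r + 2 * s = 4) : h ^ 4 * ((n / h ^ 4) ^ r * (E / h ^ 2) ^ s) = n ^ r * E ^ s := by
  rw [Real.div_rpow hn (by positivity), Real.div_rpow hE (by positivity)]
  have h1 := pow_hom hh hrs
  have p1 : (0 : ℝ) < (h ^ 4) ^ r := Real.rpow_pos_of_pos (by positivity) _
  have p2 : (0 : ℝ) < (h ^ 2) ^ s := Real.rpow_pos_of_pos (by positivity) _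
  rw [div_mul_div_comm, h1]
  field_simp

theorem col3_hom {d h n E : ℝ} (hh : 0 < h) (hn : 0 ≤ n) (hE : 0 ≤ E) :
    h ^ 4 * col3 d (n / h ^ 4) (E / h ^ 2) = col3 d n E := by
  unfold col3
  have t1 := term_hom hh hn hE (r := 7 / 12) (s := 5 / 6) (by norm_num)
  have t2 := term_hom hh hn hE (r := 3 / 5) (s := 4 / 5) (by norm_num)
  have t3 := term_hom hh hn hE (r := 2 / 3) (s := 2 / 3) (by norm_num)
  calc _ = d ^ (5 / 3 : ℝ) * (h ^ 4 * ((n / h ^ 4) ^ (7 / 12 : ℝ) * (E / h ^ 2) ^ (5 / 6 : ℝ))) +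
      d ^ (8 / 5 : ℝ) * (h ^ 4 * ((n / h ^ 4) ^ (3 / 5 : ℝ) * (E / h ^ 2) ^ (4 / 5 : ℝ))) +
      d ^ (4 / 3 : ℝ) * (h ^ 4 * ((n / h ^ 4) ^ (2 / 3 : ℝ) * (E / h ^ 2) ^ (2 / 3 : ℝ))) := by
        ring
    _ = _ := by rw [t1, t2, t3]

theorem col3_mono {d n n' E E' : ℝ} (hd : 0 ≤ d) (hn : 0 ≤ n) (hE : 0 ≤ E) (h1 : n ≤ n')
    (h2 : E ≤ E') : col3 d n E ≤ col3 d n' E' := by
  unfold col3
  have hn' := hn.trans h1
  have hE' := hE.trans h2
  have a : ∀ r : ℝ, 0 ≤ r → n ^ r ≤ n' ^ r := fun r hr => Real.rpow_le_rpow hn h1 hr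
  have b : ∀ r : ℝ, 0 ≤ r → E ^ r ≤ E' ^ r := fun r hr => Real.rpow_le_rpow hE h2 hr
  have a1 := a (7 / 12) (by norm_num)
  have a2 := a (3 / 5) (by norm_num)
  have a3 := a (2 / 3) (by norm_num)
  have b1 := b (5 / 6) (by norm_num)
  have b2 := b (4 / 5) (by norm_num)
  have b3 := b (2 / 3) (by norm_num)
  gcongr

/-- one column at height `h`: `|a| ≤ h²`, pivot energy `E / h²` -/
theorem u4P_scaled {d L : ℝ} (hd : 0 < d) (hL : 1 ≤ L) {A B C : Finset ℤ}
    {G : ℤ × ℤ × ℤ → ℝ} (hU : UnifB d A B C G)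
    (h1 : ∀ y ∈ B, ∀ z ∈ C, (avg A fun x => G (x, y, z) ^ 2) ≤ L)
    (h2 : ∀ x ∈ A, ∀ z ∈ C, (avg B fun y => G (x, y, z) ^ 2) ≤ L)
    {c : ℤ} (hc : c ∈ B) (a : ℤ → ℤ → ℝ) (b : ℤ → ℝ) {h : ℝ} (hh : 0 < h)
    (ha : ∀ y ∈ B, ∀ x ∈ A, |a y x| ≤ h ^ 2) (hb : ∀ x ∈ A, |b x| ≤ 1) {n E : ℝ}
    (hn : (avg B fun y => avg A fun x => a y x ^ 2) ≤ n)
    (hE : (avg A fun x => avg C fun z => (b x * G (x, c, z)) ^ 2) ≤ E / h ^ 2) :
    (avg B fun y => avg C fun z => colM A G c a b y z ^ 2) ≤ 16 * L ^ 2 * col3 d n E := by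
  have hn0 : 0 ≤ n := (avg_nonneg fun _ _ => avg_nonneg fun _ _ => sq_nonneg _).trans hn
  have hE0 : 0 ≤ E := by
    have := (avg_nonneg fun _ _ => avg_nonneg fun _ _ => sq_nonneg _).trans hE
    rwa [le_div_iff₀ (by positivity), zero_mul] at this
  have key := u4P_center (n := n / h ^ 4) (E := E / h ^ 2) hd hL hU h1 h2 hc
    (fun y x => a y x / h ^ 2) b
    (fun y hy x hx => by
      rw [abs_div, abs_of_pos (by positivity : (0 : ℝ) < h ^ 2), div_le_one (by positivity)]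
      exact ha y hy x hx) hb
    (by
      have e1 : (avg B fun y => avg A fun x => (a y x / h ^ 2) ^ 2) =
          (1 / h ^ 4) * avg B fun y => avg A fun x => a y x ^ 2 := by
        rw [← avg_mul_left]
        refine avg_congr fun y _ => ?_
        rw [← avg_mul_left]
        exact avg_congr fun x _ => by field_simp
      rw [e1, one_div, inv_mul_le_iff₀ (by positivity), mul_div_cancel₀ _ (by positivity)]
      exact hn) hE
  have e2 : ∀ y z, colM A G c a b y z = h ^ 2 * colM A G c (fun y x => a y x / h ^ 2) b y z := by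
    intro y z
    unfold colM
    rw [← avg_mul_left]
    exact avg_congr fun x _ => by field_simp
  have e3 : (avg B fun y => avg C fun z => colM A G c a b y z ^ 2) =
      h ^ 4 * avg B fun y => avg C fun z => colM A G c (fun y x => a y x / h ^ 2) b y z ^ 2 := by
    rw [← avg_mul_left]
    refine avg_congr fun y _ => ?_
    rw [← avg_mul_left]
    exact avg_congr fun z _ => by rw [e2]; ring
  rw [e3, ← col3_hom hh hn0 hE0]
  calc _ ≤ h ^ 4 * (16 * L ^ 2 * col3 d (n / h ^ 4) (E / h ^ 2)) :=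
        mul_le_mul_of_nonneg_left key (by positivity)
    _ = _ := by ring

/-! ### Hölder for averages -/

theorem avg_rpow_mul_le {X : Type*} (Q : Finset X) {f g : X → ℝ} (hf : ∀ x ∈ Q, 0 ≤ f x)
    (hg : ∀ x ∈ Q, 0 ≤ g x) {r : ℝ} (h0 : 0 < r) (h1 : r < 1) :
    (avg Q fun x => f x ^ r * g x ^ (1 - r)) ≤ (avg Q f) ^ r * (avg Q g) ^ (1 - r) := by
  have hF0 : 0 ≤ avg Q f := avg_nonneg hf
  have hG0 : 0 ≤ avg Q g := avg_nonneg hg
  rcases hF0.eq_or_lt with hF | hF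
  · have : (avg Q fun x => f x ^ r * g x ^ (1 - r)) = 0 := by
      rw [avg_congr (g := fun _ => 0) fun x hx => by
        rw [eq_zero_of_avg_le hf hF.symm.le hx, Real.zero_rpow h0.ne', zero_mul]]
      simp [avg]
    rw [this]
    positivity
  rcases hG0.eq_or_lt with hG | hG
  · have : (avg Q fun x => f x ^ r * g x ^ (1 - r)) = 0 := by
      rw [avg_congr (g := fun _ => 0) fun x hx => by
        rw [eq_zero_of_avg_le hg hG.symm.le hx, Real.zero_rpow (by linarith : (1 - r) ≠ 0),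
          mul_zero]]
      simp [avg]
    rw [this]
    positivity
  have key : ∀ x ∈ Q, f x ^ r * g x ^ (1 - r) ≤ (avg Q f) ^ r * (avg Q g) ^ (1 - r) *
      (r * (f x / avg Q f) + (1 - r) * (g x / avg Q g)) := by
    intro x hx
    have hx1 := hf x hx
    have hx2 := hg x hx
    have am := Real.geom_mean_le_arith_mean2_weighted h0.le (by linarith : 0 ≤ 1 - r)
      (div_nonneg hx1 hF0) (div_nonneg hx2 hG0) (by ring)
    rw [Real.div_rpow hx1 hF0, Real.div_rpow hx2 hG0] at am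
    have p1 : 0 < (avg Q f) ^ r := Real.rpow_pos_of_pos hF _
    have p2 : 0 < (avg Q g) ^ (1 - r) := Real.rpow_pos_of_pos hG _
    calc f x ^ r * g x ^ (1 - r) = (avg Q f) ^ r * (avg Q g) ^ (1 - r) *
          (f x ^ r / (avg Q f) ^ r * (g x ^ (1 - r) / (avg Q g) ^ (1 - r))) := by field_simp
      _ ≤ _ := mul_le_mul_of_nonneg_left am (by positivity)
  have hne : (avg Q fun _ : X => (1 : ℝ)) ≤ 1 := by
    rcases Q.eq_empty_or_nonempty with rfl | hQ
    · simp [avg]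
    · exact (avg_const hQ 1).le
  refine (avg_mono key).trans ?_
  rw [avg_mul_left, avg_add, avg_mul_left, avg_mul_left]
  have e1 : (avg Q fun x => f x / avg Q f) = 1 := by
    rw [avg_congr (g := fun x => (avg Q f)⁻¹ * f x) fun x _ => by field_simp, avg_mul_left]
    exact inv_mul_cancel₀ hF.ne'
  have e2 : (avg Q fun x => g x / avg Q g) = 1 := by
    rw [avg_congr (g := fun x => (avg Q g)⁻¹ * g x) fun x _ => by field_simp, avg_mul_left]
    exact inv_mul_cancel₀ hG.ne'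
  rw [e1, e2]
  refine le_of_eq ?_
  ring

/-- the three Hölder terms -/
def u4E (d e R : ℝ) : ℝ :=
  d ^ (5 / 3 : ℝ) * (e ^ (7 / 12 : ℝ) * R ^ (5 / 12 : ℝ)) +
    d ^ (8 / 5 : ℝ) * (e ^ (3 / 5 : ℝ) * R ^ (2 / 5 : ℝ)) +
    d ^ (4 / 3 : ℝ) * (e ^ (2 / 3 : ℝ) * R ^ (1 / 3 : ℝ))

theorem u4E_nonneg {d e R : ℝ} (hd : 0 ≤ d) (he : 0 ≤ e) (hR : 0 ≤ R) : 0 ≤ u4E d e R := by
  unfold u4E; positivity

theorem avg_col3_le {X : Type*} (Q : Finset X) {d : ℝ} (hd : 0 ≤ d) {n E : X → ℝ}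
    (hn : ∀ x ∈ Q, 0 ≤ n x) (hE : ∀ x ∈ Q, 0 ≤ E x) :
    (avg Q fun x => col3 d (n x) (E x)) ≤ u4E d (avg Q n) (avg Q fun x => E x ^ 2) := by
  have hE2 : ∀ x ∈ Q, 0 ≤ E x ^ 2 := fun x _ => sq_nonneg _
  have key : ∀ r s : ℝ, 0 < r → r < 1 → s = 2 * (1 - r) →
      (avg Q fun x => n x ^ r * E x ^ s) ≤ (avg Q n) ^ r * (avg Q fun x => E x ^ 2) ^ (1 - r) := by
    intro r s h0 h1 hs
    refine le_trans (le_of_eq ?_) (avg_rpow_mul_le Q hn hE2 h0 h1)
    refine avg_congr fun x hx => ?_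
    congr 1
    rw [show (E x ^ 2 : ℝ) = E x ^ (2 : ℝ) by norm_cast, ← Real.rpow_mul (hE x hx), hs]
  have k1 := key (7 / 12) (5 / 6) (by norm_num) (by norm_num) (by norm_num)
  have k2 := key (3 / 5) (4 / 5) (by norm_num) (by norm_num) (by norm_num)
  have k3 := key (2 / 3) (2 / 3) (by norm_num) (by norm_num) (by norm_num)
  rw [show (1 : ℝ) - 7 / 12 = 5 / 12 by norm_num] at k1
  rw [show (1 : ℝ) - 3 / 5 = 2 / 5 by norm_num] at k2
  rw [show (1 : ℝ) - 2 / 3 = 1 / 3 by norm_num] at k3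
  unfold col3 u4E
  rw [avg_add, avg_add, avg_mul_left, avg_mul_left, avg_mul_left]
  have d1 : 0 ≤ d ^ (5 / 3 : ℝ) := Real.rpow_nonneg hd _
  have d2 : 0 ≤ d ^ (8 / 5 : ℝ) := Real.rpow_nonneg hd _
  have d3 : 0 ≤ d ^ (4 / 3 : ℝ) := Real.rpow_nonneg hd _
  exact add_le_add (add_le_add (mul_le_mul_of_nonneg_left k1 d1)
    (mul_le_mul_of_nonneg_left k2 d2)) (mul_le_mul_of_nonneg_left k3 d3)

/-! ### The columns, by heights of the pivot -/

section cols

variable {V : Type*} [NormedAddCommGroup V] [InnerProductSpace ℝ V]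

/-- the potential seen by the column `c`, Hilbert–Schmidt form -/
def eC (A B : Finset ℤ) (u : ℤ → ℤ → V) (c : ℤ) : ℝ :=
  avg A fun x => avg B fun y => (inner ℝ (u x y) (u x c)) ^ 2

/-- the mass of the column `c` -/
def rC (A : Finset ℤ) (u : ℤ → ℤ → V) (c : ℤ) : ℝ := avg A fun x => ‖u x c‖ ^ 2

theorem eC_nonneg (A B : Finset ℤ) (u : ℤ → ℤ → V) (c : ℤ) : 0 ≤ eC A B u c :=
  avg_nonneg fun _ _ => avg_nonneg fun _ _ => sq_nonneg _

omit [InnerProductSpace ℝ V] in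
theorem rC_nonneg (A : Finset ℤ) (u : ℤ → ℤ → V) (c : ℤ) : 0 ≤ rC A u c :=
  avg_nonneg fun _ _ => sq_nonneg _

/-- the level `(2^-(j+1), 2^-j]` of the norm -/
def lv (j : ℕ) (s : ℝ) : ℝ := if (1 / 2 : ℝ) ^ (j + 1) < s ∧ s ≤ (1 / 2) ^ j then 1 else 0

theorem lv_nonneg (j : ℕ) (s : ℝ) : 0 ≤ lv j s := by unfold lv; split_ifs <;> norm_num

theorem lv_le_one (j : ℕ) (s : ℝ) : lv j s ≤ 1 := by unfold lv; split_ifs <;> norm_num

theorem lv_sq (j : ℕ) (s : ℝ) : lv j s * lv j s = lv j s := by unfold lv; split_ifs <;> norm_num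

theorem lv_mul_le (j : ℕ) {s : ℝ} : s * lv j s ≤ (1 / 2) ^ j := by
  unfold lv; split_ifs with h
  · rw [mul_one]; exact h.2
  · rw [mul_zero]; positivity

theorem lv_le_sq (j : ℕ) {s : ℝ} : lv j s ≤ 4 * s ^ 2 / ((1 / 2) ^ j) ^ 2 := by
  unfold lv; split_ifs with h
  · rw [le_div_iff₀ (by positivity), one_mul]
    have h1 : (1 / 2 : ℝ) ^ j ≤ 2 * s := by
      have := h.1
      rw [pow_succ] at this
      linarith
    calc ((1 / 2 : ℝ) ^ j) ^ 2 ≤ (2 * s) ^ 2 := pow_le_pow_left₀ (by positivity) h1 2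
      _ = _ := by ring
  · positivity

theorem sum_lv (N : ℕ) {s : ℝ} (h0 : (1 / 2 : ℝ) ^ N < s) (h1 : s ≤ 1) :
    ∑ j ∈ Finset.range N, lv j s = 1 := by
  induction N with
  | zero => simp at h0; linarith
  | succ N ih =>
    rw [Finset.sum_range_succ]
    rcases lt_or_ge ((1 / 2 : ℝ) ^ N) s with h | h
    · rw [ih h]
      have : lv N s = 0 := by
        unfold lv; rw [if_neg]; intro hh; linarith [hh.2]
      rw [this, add_zero]
    · have e1 : lv N s = 1 := by unfold lv; rw [if_pos ⟨h0, h⟩]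
      have e2 : ∑ j ∈ Finset.range N, lv j s = 0 := by
        refine Finset.sum_eq_zero fun j hj => ?_
        unfold lv
        rw [if_neg]
        intro hh
        have hj' : j + 1 ≤ N := Finset.mem_range.1 hj
        have : (1 / 2 : ℝ) ^ N ≤ (1 / 2) ^ (j + 1) :=
          pow_le_pow_of_le_one (by norm_num) (by norm_num) hj'
        linarith [hh.1]
      rw [e1, e2, zero_add]

/-- the column kernel with a weight `θ` -/
def kth (A : Finset ℤ) (G : ℤ × ℤ × ℤ → ℝ) (u : ℤ → ℤ → V) (θ : ℤ → ℤ → ℝ) (c y z : ℤ) : ℝ :=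
  avg A fun x => θ y x * inner ℝ (u x y) (u x c) * (G (x, y, z) * G (x, c, z))

theorem sq_sum_le_card {N : ℕ} (f : ℕ → ℝ) :
    (∑ j ∈ Finset.range N, f j) ^ 2 ≤ N * ∑ j ∈ Finset.range N, f j ^ 2 := by
  have h := Finset.sum_mul_sq_le_sq_mul_sq (Finset.range N) (fun _ => (1 : ℝ)) f
  simpa using h

/-- **one column, all heights**: `θ` lives where `‖u x y‖ ≤ ‖u x c‖`. -/
theorem kth_le {d L : ℝ} (hd : 0 < d) (hL : 1 ≤ L) {A B C : Finset ℤ}
    {G : ℤ × ℤ × ℤ → ℝ} (hU : UnifB d A B C G)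
    (h1 : ∀ y ∈ B, ∀ z ∈ C, (avg A fun x => G (x, y, z) ^ 2) ≤ L)
    (h2 : ∀ x ∈ A, ∀ z ∈ C, (avg B fun y => G (x, y, z) ^ 2) ≤ L)
    (h3 : ∀ x ∈ A, ∀ y ∈ B, (avg C fun z => G (x, y, z) ^ 2) ≤ L)
    (u : ℤ → ℤ → V) (hu : ∀ x ∈ A, ∀ y ∈ B, ‖u x y‖ ≤ 1) {N : ℕ}
    (hN : ∀ x ∈ A, ∀ y ∈ B, ‖u x y‖ = 0 ∨ (1 / 2 : ℝ) ^ N < ‖u x y‖)
    {c : ℤ} (hc : c ∈ B) (θ : ℤ → ℤ → ℝ) (hθ1 : ∀ y ∈ B, ∀ x ∈ A, |θ y x| ≤ 1)
    (hθ : ∀ y ∈ B, ∀ x ∈ A, θ y x ≠ 0 → ‖u x y‖ ≤ ‖u x c‖) :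
    (avg B fun y => avg C fun z => kth A G u θ c y z ^ 2) ≤
      N ^ 2 * (16 * L ^ 2 * col3 d (eC A B u c) (4 * L * rC A u c)) := by
  have hL0 : 0 ≤ L := by linarith
  have hdec : ∀ y ∈ B, ∀ z ∈ C, kth A G u θ c y z = ∑ j ∈ Finset.range N,
      colM A G c (fun y x => θ y x * inner ℝ (u x y) (u x c) * lv j ‖u x c‖)
        (fun x => lv j ‖u x c‖) y z := by
    intro y hy z _
    unfold kth colM
    rw [← H550.avg_sum]
    refine avg_congr fun x hx => ?_
    have e1 : ∀ j, θ y x * inner ℝ (u x y) (u x c) * lv j ‖u x c‖ * lv j ‖u x c‖ *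
        (G (x, y, z) * G (x, c, z)) =
        (θ y x * inner ℝ (u x y) (u x c) * (G (x, y, z) * G (x, c, z))) * lv j ‖u x c‖ := by
      intro j
      have := lv_sq j ‖u x c‖
      calc _ = (θ y x * inner ℝ (u x y) (u x c) * (G (x, y, z) * G (x, c, z))) *
            (lv j ‖u x c‖ * lv j ‖u x c‖) := by ring
        _ = _ := by rw [this]
    rw [Finset.sum_congr rfl fun j _ => e1 j, ← Finset.mul_sum]
    rcases hN x hx c hc with h0 | hpos
    · rw [norm_eq_zero] at h0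
      rw [h0, inner_zero_right]; ring
    · rw [sum_lv N hpos (hu x hx c hc), mul_one]
  have hone : ∀ j : ℕ, (avg B fun y => avg C fun z =>
      colM A G c (fun y x => θ y x * inner ℝ (u x y) (u x c) * lv j ‖u x c‖)
        (fun x => lv j ‖u x c‖) y z ^ 2) ≤
      16 * L ^ 2 * col3 d (eC A B u c) (4 * L * rC A u c) := by
    intro j
    refine u4P_scaled hd hL hU h1 h2 hc _ _ (h := (1 / 2) ^ j) (by positivity) ?_ ?_ ?_ ?_
    · intro y hy x hx
      by_cases h0 : θ y x = 0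
      · rw [h0]; simp only [zero_mul, abs_zero]; positivity
      · rw [abs_mul, abs_mul, abs_of_nonneg (lv_nonneg j _)]
        have k1 := hθ y hy x hx h0
        have k2 := abs_real_inner_le_norm (u x y) (u x c)
        have k3 : ‖u x c‖ * lv j ‖u x c‖ ≤ (1 / 2) ^ j := lv_mul_le j
        have k4 : 0 ≤ ‖u x c‖ * lv j ‖u x c‖ := mul_nonneg (norm_nonneg _) (lv_nonneg j _)
        calc |θ y x| * |inner ℝ (u x y) (u x c)| * lv j ‖u x c‖
            ≤ 1 * (‖u x c‖ * ‖u x c‖) * lv j ‖u x c‖ := by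
              refine mul_le_mul_of_nonneg_right (mul_le_mul (hθ1 y hy x hx) ?_ (abs_nonneg _)
                zero_le_one) (lv_nonneg j _)
              exact k2.trans (mul_le_mul_of_nonneg_right k1 (norm_nonneg _))
          _ = (‖u x c‖ * lv j ‖u x c‖) * (‖u x c‖ * lv j ‖u x c‖) := by
              have := lv_sq j ‖u x c‖
              calc _ = ‖u x c‖ * ‖u x c‖ * lv j ‖u x c‖ := by ring
                _ = ‖u x c‖ * ‖u x c‖ * (lv j ‖u x c‖ * lv j ‖u x c‖) := by rw [this]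
                _ = _ := by ring
          _ ≤ (1 / 2) ^ j * (1 / 2) ^ j := mul_le_mul k3 k3 k4 (by positivity)
          _ = _ := by ring
    · intro x _
      rw [abs_of_nonneg (lv_nonneg j _)]; exact lv_le_one j _
    · rw [avg_comm]
      refine avg_mono fun x hx => avg_mono fun y hy => ?_
      have k1 : θ y x ^ 2 ≤ 1 := by
        rw [← sq_abs]; exact pow_le_one₀ (abs_nonneg _) (hθ1 y hy x hx)
      have k2 : lv j ‖u x c‖ ^ 2 ≤ 1 := pow_le_one₀ (lv_nonneg j _) (lv_le_one j _)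
      calc (θ y x * inner ℝ (u x y) (u x c) * lv j ‖u x c‖) ^ 2
          = (θ y x ^ 2 * lv j ‖u x c‖ ^ 2) * (inner ℝ (u x y) (u x c)) ^ 2 := by ring
        _ ≤ 1 * (inner ℝ (u x y) (u x c)) ^ 2 :=
            mul_le_mul_of_nonneg_right (mul_le_one₀ k1 (sq_nonneg _) k2) (sq_nonneg _)
        _ = _ := one_mul _
    · have e1 : (4 * L * rC A u c) / ((1 / 2 : ℝ) ^ j) ^ 2 =
          avg A fun x => L * (4 * ‖u x c‖ ^ 2 / ((1 / 2 : ℝ) ^ j) ^ 2) := by
        have e0 : (avg A fun x => L * (4 * ‖u x c‖ ^ 2 / ((1 / 2 : ℝ) ^ j) ^ 2)) =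
            (4 * L / ((1 / 2 : ℝ) ^ j) ^ 2) * avg A fun x => ‖u x c‖ ^ 2 := by
          rw [← avg_mul_left]
          exact avg_congr fun x _ => by ring
        rw [e0]
        unfold rC
        ring
      rw [e1]
      refine avg_mono fun x hx => ?_
      have e2 : (avg C fun z => (lv j ‖u x c‖ * G (x, c, z)) ^ 2) =
          lv j ‖u x c‖ * avg C fun z => G (x, c, z) ^ 2 := by
        rw [← avg_mul_left]
        refine avg_congr fun z _ => ?_
        rw [mul_pow, sq (lv j ‖u x c‖), lv_sq]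
      rw [e2, mul_comm]
      exact mul_le_mul (h3 x hx c hc) (lv_le_sq j) (lv_nonneg j _) hL0
  calc (avg B fun y => avg C fun z => kth A G u θ c y z ^ 2)
      ≤ avg B fun y => avg C fun z => (N : ℝ) * ∑ j ∈ Finset.range N,
          colM A G c (fun y x => θ y x * inner ℝ (u x y) (u x c) * lv j ‖u x c‖)
            (fun x => lv j ‖u x c‖) y z ^ 2 := by
        refine avg_mono fun y hy => avg_mono fun z hz => ?_
        rw [hdec y hy z hz]
        exact sq_sum_le_card _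
    _ = (N : ℝ) * ∑ j ∈ Finset.range N, avg B fun y => avg C fun z =>
          colM A G c (fun y x => θ y x * inner ℝ (u x y) (u x c) * lv j ‖u x c‖)
            (fun x => lv j ‖u x c‖) y z ^ 2 := by
        rw [← H550.avg_sum, ← avg_mul_left]
        refine avg_congr fun y _ => ?_
        rw [← H550.avg_sum, ← avg_mul_left]
    _ ≤ (N : ℝ) * ∑ j ∈ Finset.range N,
          16 * L ^ 2 * col3 d (eC A B u c) (4 * L * rC A u c) :=
        mul_le_mul_of_nonneg_left (Finset.sum_le_sum fun j _ => hone j) (Nat.cast_nonneg _)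
    _ = _ := by
        rw [Finset.sum_const, Finset.card_range, nsmul_eq_mul]; ring

/-- **(U4), Hilbert–Schmidt potentials, all heights above `2^-N`.** -/
theorem u4H_high {d L : ℝ} (hd : 0 < d) (hL : 1 ≤ L) {A B C : Finset ℤ}
    {G : ℤ × ℤ × ℤ → ℝ} (hU : UnifB d A B C G)
    (h1 : ∀ y ∈ B, ∀ z ∈ C, (avg A fun x => G (x, y, z) ^ 2) ≤ L)
    (h2 : ∀ x ∈ A, ∀ z ∈ C, (avg B fun y => G (x, y, z) ^ 2) ≤ L)
    (h3 : ∀ x ∈ A, ∀ y ∈ B, (avg C fun z => G (x, y, z) ^ 2) ≤ L)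
    (u : ℤ → ℤ → V) (hu : ∀ x ∈ A, ∀ y ∈ B, ‖u x y‖ ≤ 1) {N : ℕ}
    (hN : ∀ x ∈ A, ∀ y ∈ B, ‖u x y‖ = 0 ∨ (1 / 2 : ℝ) ^ N < ‖u x y‖) :
    (avg B fun c => avg B fun y => avg C fun z =>
      (avg A fun x => inner ℝ (u x y) (u x c) * (G (x, y, z) * G (x, c, z))) ^ 2) ≤
      64 * N ^ 2 * L ^ 2 * u4E d (avg B fun c => eC A B u c)
        (avg B fun c => (4 * L * rC A u c) ^ 2) := by
  classical
  have hL0 : 0 ≤ L := by linarith
  set θ : ℤ → ℤ → ℤ → ℝ := fun c y x => if ‖u x y‖ ≤ ‖u x c‖ then 1 else 0 with hθ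
  set η : ℤ → ℤ → ℤ → ℝ := fun y c x => if ‖u x c‖ < ‖u x y‖ then 1 else 0 with hη
  have hsplit : ∀ c y z, (avg A fun x => inner ℝ (u x y) (u x c) * (G (x, y, z) * G (x, c, z))) =
      kth A G u (θ c) c y z + kth A G u (η y) y c z := by
    intro c y z
    unfold kth
    rw [← avg_add]
    refine avg_congr fun x _ => ?_
    simp only [hθ, hη]
    rw [real_inner_comm (u x y) (u x c)]
    by_cases h : ‖u x y‖ ≤ ‖u x c‖
    · rw [if_pos h, if_neg (not_lt.2 h)]; ring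
    · rw [if_neg h, if_pos (not_le.1 h)]; ring
  have hA1 : ∀ c ∈ B, (avg B fun y => avg C fun z => kth A G u (θ c) c y z ^ 2) ≤
      N ^ 2 * (16 * L ^ 2 * col3 d (eC A B u c) (4 * L * rC A u c)) := by
    intro c hc
    refine kth_le hd hL hU h1 h2 h3 u hu hN hc (θ c) ?_ ?_
    · intro y _ x _; simp only [hθ]; split_ifs <;> simp
    · intro y _ x _ h; simp only [hθ] at h
      by_contra hcon
      exact h (if_neg hcon)
  have hA2 : ∀ y ∈ B, (avg B fun c => avg C fun z => kth A G u (η y) y c z ^ 2) ≤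
      N ^ 2 * (16 * L ^ 2 * col3 d (eC A B u y) (4 * L * rC A u y)) := by
    intro y hy
    refine kth_le hd hL hU h1 h2 h3 u hu hN hy (η y) ?_ ?_
    · intro c _ x _; simp only [hη]; split_ifs <;> simp
    · intro c _ x _ h; simp only [hη] at h
      by_contra hcon
      push Not at hcon
      exact h (if_neg (not_lt.2 hcon.le))
  have hsum : (avg B fun c => col3 d (eC A B u c) (4 * L * rC A u c)) ≤
      u4E d (avg B fun c => eC A B u c) (avg B fun c => (4 * L * rC A u c) ^ 2) :=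
    avg_col3_le B hd.le (fun c _ => eC_nonneg A B u c)
      fun c _ => mul_nonneg (by positivity) (rC_nonneg A u c)
  calc (avg B fun c => avg B fun y => avg C fun z =>
        (avg A fun x => inner ℝ (u x y) (u x c) * (G (x, y, z) * G (x, c, z))) ^ 2)
      ≤ avg B fun c => avg B fun y => avg C fun z =>
          (2 * kth A G u (θ c) c y z ^ 2 + 2 * kth A G u (η y) y c z ^ 2) := by
        refine avg_mono fun c _ => avg_mono fun y _ => avg_mono fun z _ => ?_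
        rw [hsplit]
        nlinarith [sq_nonneg (kth A G u (θ c) c y z - kth A G u (η y) y c z)]
    _ = 2 * (avg B fun c => avg B fun y => avg C fun z => kth A G u (θ c) c y z ^ 2) +
        2 * avg B fun c => avg B fun y => avg C fun z => kth A G u (η y) y c z ^ 2 := by
        rw [← avg_mul_left, ← avg_mul_left, ← avg_add]
        refine avg_congr fun c _ => ?_
        rw [← avg_mul_left, ← avg_mul_left, ← avg_add]
        refine avg_congr fun y _ => ?_
        rw [← avg_mul_left, ← avg_mul_left, ← avg_add]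
    _ ≤ 2 * (avg B fun c => N ^ 2 * (16 * L ^ 2 * col3 d (eC A B u c) (4 * L * rC A u c))) +
        2 * avg B fun y => N ^ 2 * (16 * L ^ 2 * col3 d (eC A B u y) (4 * L * rC A u y)) := by
        refine add_le_add (mul_le_mul_of_nonneg_left (avg_mono hA1) (by norm_num))
          (mul_le_mul_of_nonneg_left ?_ (by norm_num))
        rw [avg_comm]
        exact avg_mono hA2
    _ = 64 * N ^ 2 * L ^ 2 * avg B fun c => col3 d (eC A B u c) (4 * L * rC A u c) := by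
        rw [avg_mul_left, avg_mul_left]; ring
    _ ≤ _ := mul_le_mul_of_nonneg_left hsum (by positivity)

end cols

end

end Vale.Agent.P141.H703
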