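import Vale.Agent.P141.H944.BoxP
import Vale.Agent.P141.H419.WpCalc

/-!
# P141, scale-invariant version: (U4) in the pair weight, one column, all heights

`G` is `d`-uniform on a box `A × B × C` against the pair weight (`UnifB`), its line averages of
squares in the first two directions are at most `L`.  For a column `c`, a scalar edge `|a y x| ≤ 1`
and a vertex function `|b x| ≤ 1` the matrix `h (y, z) = avg_A a b G (x, y, z) G (x, c, z)` is small
in `L²`.  Only the pivot copy `b x G (x, c, z)` is cut at a height `lam`.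
-/

namespace Vale.Agent.P141.H703

noncomputable section

open scoped BigOperators
open Vale.Agent.P141.PL.H315 (avg avg_nonneg Tri atm e12 e13 e23)
open Vale.Agent.P141.H550 (avg_prod avg_comm avg_const avg_congr avg_mono avg_mul_left
  avg_mul_right avg_add abs_avg_le abs_avg_le_of avg_mul_sq_le)
open Vale.Agent.P141.H922 (n2 n4 nN n2_nonneg n4_nonneg nN_nonneg n2_sq)
open Vale.Agent.P141.H944 (UnifB)

/-- the column matrix -/
def colM (A : Finset ℤ) (G : ℤ × ℤ × ℤ → ℝ) (c : ℤ) (a : ℤ → ℤ → ℝ) (b : ℤ → ℝ)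
    (y z : ℤ) : ℝ :=
  avg A fun x => a y x * b x * (G (x, y, z) * G (x, c, z))

/-- the low part of a number -/
def low (lam s : ℝ) : ℝ := if |s| ≤ lam then s else 0

/-- the tall part of a number -/
def tall (lam s : ℝ) : ℝ := if |s| ≤ lam then 0 else s

theorem low_add_tall (lam s : ℝ) : low lam s + tall lam s = s := by
  unfold low tall; split_ifs <;> ring

theorem abs_low_le {lam : ℝ} (h : 0 ≤ lam) (s : ℝ) : |low lam s| ≤ lam := by
  unfold low; split_ifs with h1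
  · exact h1
  · simpa using h

theorem low_sq_le (lam s : ℝ) : low lam s ^ 2 ≤ s ^ 2 := by
  unfold low; split_ifs
  · exact le_rfl
  · simp only [ne_eq, OfNat.ofNat_ne_zero, not_false_eq_true, zero_pow]; positivity

theorem abs_tall_le {lam : ℝ} (h : 0 < lam) (s : ℝ) : |tall lam s| ≤ lam⁻¹ * s ^ 2 := by
  unfold tall; split_ifs with h1
  · rw [abs_zero]; positivity
  · push Not at h1
    rw [le_inv_mul_iff₀ h, ← sq_abs, sq]
    exact mul_le_mul_of_nonneg_right h1.le (abs_nonneg _)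

/-- `(avg f g)² ≤ (avg |f|) (avg |f| g²)` -/
theorem avg_mul_sq_le_abs {X : Type*} (Q : Finset X) (f g : X → ℝ) :
    (avg Q fun x => f x * g x) ^ 2 ≤ (avg Q fun x => |f x|) * avg Q fun x => |f x| * g x ^ 2 := by
  have h := avg_mul_sq_le Q (fun x => √|f x|) (fun x => √|f x| * |g x|)
  have e1 : (avg Q fun x => (√|f x|) ^ 2) = avg Q fun x => |f x| :=
    avg_congr fun x _ => Real.sq_sqrt (abs_nonneg _)
  have e2 : (avg Q fun x => (√|f x| * |g x|) ^ 2) = avg Q fun x => |f x| * g x ^ 2 :=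
    avg_congr fun x _ => by rw [mul_pow, Real.sq_sqrt (abs_nonneg _), sq_abs]
  have e3 : (avg Q fun x => √|f x| * (√|f x| * |g x|)) = avg Q fun x => |f x * g x| :=
    avg_congr fun x _ => by rw [← mul_assoc, Real.mul_self_sqrt (abs_nonneg _), abs_mul]
  rw [e1, e2, e3] at h
  refine le_trans ?_ h
  rw [← sq_abs (avg Q fun x => f x * g x)]
  exact pow_le_pow_left₀ (abs_nonneg _) (abs_avg_le _ _) 2

/-- **U4 in the pair weight, one column, raw form.** -/
theorem u4P_raw {d L lam : ℝ} (hd : 0 ≤ d) (hL : 0 ≤ L) (hlam : 0 < lam) {A B C : Finset ℤ}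
    {G : ℤ × ℤ × ℤ → ℝ} (hU : UnifB d A B C G)
    (h1 : ∀ y ∈ B, ∀ z ∈ C, (avg A fun x => G (x, y, z) ^ 2) ≤ L)
    (h2 : ∀ x ∈ A, ∀ z ∈ C, (avg B fun y => G (x, y, z) ^ 2) ≤ L)
    {c : ℤ} (hc : c ∈ B) (a : ℤ → ℤ → ℝ) (b : ℤ → ℝ)
    (ha : ∀ y ∈ B, ∀ x ∈ A, |a y x| ≤ 1) (hb : ∀ x ∈ A, |b x| ≤ 1)
    {al de H : ℝ} (hal0 : 0 ≤ al) (hde0 : 0 ≤ de) (hH0 : 0 ≤ H)
    (hal : (avg B fun y => avg A fun x => a y x ^ 2) ≤ al ^ 2)
    (hde : (avg A fun x => avg C fun z => (b x * G (x, c, z)) ^ 2) ≤ de ^ 2)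
    (hH : H ^ 2 = avg B fun y => avg C fun z => colM A G c a b y z ^ 2) :
    ∃ p q r : ℝ, 0 ≤ p ∧ 0 ≤ q ∧ 0 ≤ r ∧ p ^ 4 ≤ al ^ 3 ∧ q ^ 4 ≤ lam * de ^ 3 ∧
      r ^ 4 ≤ L * H ^ 3 ∧
      H ^ 2 ≤ d * (p * q * H + p * r * de + q * r * al) + L * (lam⁻¹ * de) * H := by
  classical
  set h : ℤ → ℤ → ℝ := fun y z => colM A G c a b y z with hh
  let u12 : ℤ × ℤ → ℝ := fun q => a q.2 q.1
  let u13 : ℤ × ℤ → ℝ := fun q => low lam (b q.1 * G (q.1, c, q.2))
  let u23 : ℤ × ℤ → ℝ := fun q => h q.1 q.2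
  let hl : ℤ → ℤ → ℝ := fun y z => avg A fun x => u13 (x, z) * (a y x * G (x, y, z))
  let ht : ℤ → ℤ → ℝ := fun y z => avg A fun x =>
    (a y x * tall lam (b x * G (x, c, z))) * G (x, y, z)
  have hsplit : ∀ y z, h y z = hl y z + ht y z := by
    intro y z
    simp only [hh, colM, hl, ht]
    rw [← avg_add]
    refine avg_congr fun x _ => ?_
    have := low_add_tall lam (b x * G (x, c, z))
    calc a y x * b x * (G (x, y, z) * G (x, c, z))
        = a y x * (b x * G (x, c, z)) * G (x, y, z) := by ring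
      _ = a y x * (low lam (b x * G (x, c, z)) + tall lam (b x * G (x, c, z))) *
          G (x, y, z) := by rw [this]
      _ = _ := by simp only [u13]; ring
  -- the sup of `h`
  have hGc : ∀ z ∈ C, (avg A fun x => (b x * G (x, c, z)) ^ 2) ≤ L := by
    intro z hz
    refine le_trans (avg_mono fun x hx => ?_) (h1 c hc z hz)
    rw [mul_pow]
    have : b x ^ 2 ≤ 1 := by
      rw [← sq_abs]; exact pow_le_one₀ (abs_nonneg _) (hb x hx)
    calc b x ^ 2 * G (x, c, z) ^ 2 ≤ 1 * G (x, c, z) ^ 2 :=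
          mul_le_mul_of_nonneg_right this (sq_nonneg _)
      _ = _ := one_mul _
  have hsup : ∀ y ∈ B, ∀ z ∈ C, |h y z| ≤ L := by
    intro y hy z hz
    refine abs_le_of_sq_le_sq ?_ hL
    have e1 : h y z = avg A fun x => (a y x * G (x, y, z)) * (b x * G (x, c, z)) := by
      simp only [hh, colM]
      exact avg_congr fun x _ => by ring
    rw [e1]
    refine (avg_mul_sq_le _ _ _).trans ?_
    have e2 : (avg A fun x => (a y x * G (x, y, z)) ^ 2) ≤ L := by
      refine le_trans (avg_mono fun x hx => ?_) (h1 y hy z hz)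
      rw [mul_pow]
      have : a y x ^ 2 ≤ 1 := by
        rw [← sq_abs]; exact pow_le_one₀ (abs_nonneg _) (ha y hy x hx)
      calc a y x ^ 2 * G (x, y, z) ^ 2 ≤ 1 * G (x, y, z) ^ 2 :=
            mul_le_mul_of_nonneg_right this (sq_nonneg _)
        _ = _ := one_mul _
    calc _ ≤ L * L := mul_le_mul e2 (hGc z hz) (avg_nonneg fun _ _ => sq_nonneg _) hL
      _ = L ^ 2 := by ring
  -- the norms
  have hn12 : n2 (A ×ˢ B) u12 ≤ al := by
    unfold H922.n2
    refine Real.sqrt_le_iff.2 ⟨hal0, ?_⟩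
    rw [avg_prod, avg_comm]; exact hal
  have hn13 : n2 (A ×ˢ C) u13 ≤ de := by
    unfold H922.n2
    refine Real.sqrt_le_iff.2 ⟨hde0, ?_⟩
    rw [avg_prod]
    refine le_trans (avg_mono fun x _ => avg_mono fun z _ => ?_) hde
    exact low_sq_le _ _
  have hn23 : n2 (B ×ˢ C) u23 = H := by
    unfold H922.n2
    rw [avg_prod]
    rw [show (avg B fun y => avg C fun z => u23 (y, z) ^ 2) = H ^ 2 from hH.symm,
      Real.sqrt_sq hH0]
  have hN12 : nN (A ×ˢ B) u12 ^ 4 ≤ al ^ 3 := by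
    refine (H419.nN_four_le zero_le_one ?_).trans ?_
    · rintro ⟨x, y⟩ hq
      rw [Finset.mem_product] at hq
      exact ha y hq.2 x hq.1
    · rw [one_mul]
      exact pow_le_pow_left₀ (n2_nonneg _ _) hn12 3
  have hN13 : nN (A ×ˢ C) u13 ^ 4 ≤ lam * de ^ 3 := by
    refine (H419.nN_four_le hlam.le ?_).trans ?_
    · rintro ⟨x, z⟩ _
      exact abs_low_le hlam.le _
    · exact mul_le_mul_of_nonneg_left (pow_le_pow_left₀ (n2_nonneg _ _) hn13 3) hlam.le
  have hN23 : nN (B ×ˢ C) u23 ^ 4 ≤ L * H ^ 3 := by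
    rw [← hn23]
    refine H419.nN_four_le hL ?_
    rintro ⟨y, z⟩ hq
    rw [Finset.mem_product] at hq
    exact hsup y hq.1 z hq.2
  -- the low part
  have hpair : avg (A ×ˢ B ×ˢ C) (fun q => G q * atm (u12, u13, u23) q) =
      avg B fun y => avg C fun z => h y z * hl y z := by
    rw [avg_prod]
    have e1 : ∀ x ∈ A, avg (B ×ˢ C) (fun q => G (x, q) * atm (u12, u13, u23) (x, q)) =
        avg B fun y => avg C fun z => G (x, y, z) * atm (u12, u13, u23) (x, y, z) := by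
      intro x _
      rw [avg_prod]
    rw [avg_congr e1, avg_comm]
    refine avg_congr fun y _ => ?_
    rw [avg_comm]
    refine avg_congr fun z _ => ?_
    simp only [hl]
    rw [← avg_mul_left]
    refine avg_congr fun x _ => ?_
    simp only [atm, e12, e13, e23, u12, u13, u23]
    ring
  have hlow : (avg B fun y => avg C fun z => h y z * hl y z) ≤
      d * (nN (A ×ˢ B) u12 * nN (A ×ˢ C) u13 * H + nN (A ×ˢ B) u12 * nN (B ×ˢ C) u23 * de +
        nN (A ×ˢ C) u13 * nN (B ×ˢ C) u23 * al) := by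
    have hu := hU (u12, u13, u23)
    rw [hpair] at hu
    refine (le_abs_self _).trans (hu.trans ?_)
    refine mul_le_mul_of_nonneg_left ?_ hd
    have p1 := nN_nonneg (A ×ˢ B) u12
    have p2 := nN_nonneg (A ×ˢ C) u13
    have p3 := nN_nonneg (B ×ˢ C) u23
    refine add_le_add (add_le_add ?_ ?_) ?_
    · exact mul_le_mul_of_nonneg_left hn23.le (mul_nonneg p1 p2)
    · exact mul_le_mul_of_nonneg_left hn13 (mul_nonneg p1 p3)
    · exact mul_le_mul_of_nonneg_left hn12 (mul_nonneg p2 p3)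
  -- the tall part
  have htall : (avg B fun y => avg C fun z => h y z * ht y z) ≤ L * (lam⁻¹ * de) * H := by
    have hht : (avg B fun y => avg C fun z => ht y z ^ 2) ≤ (L * (lam⁻¹ * de)) ^ 2 := by
      rw [avg_comm]
      have hz : ∀ z ∈ C, (avg B fun y => ht y z ^ 2) ≤
          (L * lam⁻¹ ^ 2 * L) * avg A fun x => (b x * G (x, c, z)) ^ 2 := by
        intro z hz
        set f : ℤ → ℝ := fun x => |tall lam (b x * G (x, c, z))| with hf
        have hfa : avg A f ≤ lam⁻¹ * avg A fun x => (b x * G (x, c, z)) ^ 2 := by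
          rw [← avg_mul_left]
          exact avg_mono fun x _ => abs_tall_le hlam _
        have hf0 : 0 ≤ avg A f := avg_nonneg fun x _ => abs_nonneg _
        have s1 : ∀ y ∈ B, ht y z ^ 2 ≤ avg A f * avg A fun x => f x * G (x, y, z) ^ 2 := by
          intro y hy
          refine (avg_mul_sq_le_abs A _ _).trans ?_
          have m1 : ∀ x ∈ A, |a y x * tall lam (b x * G (x, c, z))| ≤ f x := by
            intro x hx
            rw [abs_mul]
            calc |a y x| * |tall lam (b x * G (x, c, z))| ≤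
                1 * |tall lam (b x * G (x, c, z))| :=
                  mul_le_mul_of_nonneg_right (ha y hy x hx) (abs_nonneg _)
              _ = f x := one_mul _
          refine mul_le_mul (avg_mono m1) (avg_mono fun x hx => ?_) ?_ hf0
          · exact mul_le_mul_of_nonneg_right (m1 x hx) (sq_nonneg _)
          · exact avg_nonneg fun x _ => mul_nonneg (abs_nonneg _) (sq_nonneg _)
        have s2 : (avg B fun y => ht y z ^ 2) ≤ avg A f * (L * avg A f) := by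
          refine (avg_mono s1).trans ?_
          rw [avg_mul_left, avg_comm]
          refine mul_le_mul_of_nonneg_left ?_ hf0
          rw [← avg_mul_left]
          refine avg_mono fun x hx => ?_
          rw [avg_mul_left, mul_comm]
          exact mul_le_mul_of_nonneg_right (h2 x hx z hz) (abs_nonneg _)
        have hD : 0 ≤ avg A fun x => (b x * G (x, c, z)) ^ 2 := avg_nonneg fun _ _ => sq_nonneg _
        have hi : 0 ≤ lam⁻¹ := inv_nonneg.2 hlam.le
        calc (avg B fun y => ht y z ^ 2) ≤ avg A f * (L * avg A f) := s2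
          _ ≤ (lam⁻¹ * avg A fun x => (b x * G (x, c, z)) ^ 2) *
              (L * (lam⁻¹ * avg A fun x => (b x * G (x, c, z)) ^ 2)) :=
              mul_le_mul hfa (mul_le_mul_of_nonneg_left hfa hL) (mul_nonneg hL hf0)
                (mul_nonneg hi hD)
          _ = (L * lam⁻¹ ^ 2 * (avg A fun x => (b x * G (x, c, z)) ^ 2)) *
              avg A fun x => (b x * G (x, c, z)) ^ 2 := by ring
          _ ≤ (L * lam⁻¹ ^ 2 * L) * avg A fun x => (b x * G (x, c, z)) ^ 2 := by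
              refine mul_le_mul_of_nonneg_right ?_ hD
              exact mul_le_mul_of_nonneg_left (hGc z hz) (by positivity)
      refine (avg_mono hz).trans ?_
      rw [avg_mul_left, avg_comm]
      calc (L * lam⁻¹ ^ 2 * L) * (avg A fun x => avg C fun z => (b x * G (x, c, z)) ^ 2)
          ≤ (L * lam⁻¹ ^ 2 * L) * de ^ 2 :=
            mul_le_mul_of_nonneg_left hde (by positivity)
        _ = (L * (lam⁻¹ * de)) ^ 2 := by ring
    have hcs : (avg B fun y => avg C fun z => h y z * ht y z) ^ 2 ≤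
        (L * (lam⁻¹ * de) * H) ^ 2 := by
      have h3 := avg_mul_sq_le (B ×ˢ C) (fun q => h q.1 q.2) (fun q => ht q.1 q.2)
      rw [avg_prod, avg_prod, avg_prod] at h3
      refine h3.trans ?_
      rw [mul_pow, mul_comm]
      refine mul_le_mul hht (le_of_eq hH.symm) ?_ (sq_nonneg _)
      exact avg_nonneg fun _ _ => avg_nonneg fun _ _ => sq_nonneg _
    exact (abs_le_of_sq_le_sq' hcs (by positivity)).2
  refine ⟨nN (A ×ˢ B) u12, nN (A ×ˢ C) u13, nN (B ×ˢ C) u23, nN_nonneg _ _, nN_nonneg _ _,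
    nN_nonneg _ _, hN12, hN13, hN23, ?_⟩
  have e0 : H ^ 2 = (avg B fun y => avg C fun z => h y z * hl y z) +
      avg B fun y => avg C fun z => h y z * ht y z := by
    rw [hH, ← avg_add]
    refine avg_congr fun y _ => ?_
    rw [← avg_add]
    refine avg_congr fun z _ => ?_
    show h y z ^ 2 = _
    rw [← mul_add, ← hsplit y z]; ring
  rw [e0]
  exact add_le_add hlow htall

/-- numbers: the four cases, `D`, `a`, `b` are the 60-th roots of `d`, `al`, `de` -/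
theorem u4P_num {D a b L H p q r lam : ℝ} (hD : 0 < D) (ha : 0 < a) (hb : 0 < b) (hL : 1 ≤ L)
    (hH : 0 ≤ H) (hlam : lam = b ^ 20 / (D ^ 40 * a ^ 40))
    (hp : p ^ 4 ≤ (a ^ 60) ^ 3) (hq : q ^ 4 ≤ lam * (b ^ 60) ^ 3) (hr : r ^ 4 ≤ L * H ^ 3)
    (h : H ^ 2 ≤ D ^ 60 * (p * q * H + p * r * b ^ 60 + q * r * a ^ 60) +
      L * (lam⁻¹ * b ^ 60) * H) :
    H ≤ 4 * L * (D ^ 50 * a ^ 35 * b ^ 50) ∨ H ≤ 4 * L * (D ^ 48 * a ^ 36 * b ^ 48) ∨
      H ≤ 4 * L * (D ^ 40 * a ^ 40 * b ^ 40) := by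
  have hL0 : 0 < L := by linarith
  rcases hH.eq_or_lt with h0 | hpos
  · left; rw [← h0]; positivity
  have hlam0 : 0 < lam := by rw [hlam]; positivity
  have hfour : H ^ 2 ≤ 4 * (D ^ 60 * (p * q * H)) ∨ H ^ 2 ≤ 4 * (D ^ 60 * (p * r * b ^ 60)) ∨
      H ^ 2 ≤ 4 * (D ^ 60 * (q * r * a ^ 60)) ∨ H ^ 2 ≤ 4 * (L * (lam⁻¹ * b ^ 60) * H) := by
    by_contra hcon
    simp only [not_or, not_le] at hcon
    obtain ⟨k1, k2, k3, k4⟩ := hcon
    have := h
    nlinarith
  have hq' : q ^ 4 ≤ b ^ 200 / (D ^ 40 * a ^ 40) := by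
    refine hq.trans (le_of_eq ?_)
    rw [hlam]; ring
  have hl1 : 256 * L ≤ (4 * L) ^ 5 := by
    have : L ≤ L ^ 5 := by
      calc L = L ^ 1 := (pow_one L).symm
        _ ≤ L ^ 5 := pow_le_pow_right₀ hL (by norm_num)
    nlinarith
  rcases hfour with h1 | h1 | h1 | h1
  · left
    have e1 : H ≤ 4 * (D ^ 60 * (p * q)) := by
      have : H * H ≤ 4 * (D ^ 60 * (p * q)) * H := by nlinarith
      exact le_of_mul_le_mul_right this hpos
    have e2 : H ^ 4 ≤ (4 * (D ^ 50 * a ^ 35 * b ^ 50)) ^ 4 := by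
      calc H ^ 4 ≤ (4 * (D ^ 60 * (p * q))) ^ 4 := pow_le_pow_left₀ hH e1 4
        _ = 256 * D ^ 240 * (p ^ 4 * q ^ 4) := by ring
        _ ≤ 256 * D ^ 240 * ((a ^ 60) ^ 3 * (b ^ 200 / (D ^ 40 * a ^ 40))) := by
            refine mul_le_mul_of_nonneg_left ?_ (by positivity)
            exact mul_le_mul hp hq' (by positivity) (by positivity)
        _ = (4 * (D ^ 50 * a ^ 35 * b ^ 50)) ^ 4 := by field_simp; ring
    have e3 : H ≤ 4 * (D ^ 50 * a ^ 35 * b ^ 50) :=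
      le_of_pow_le_pow_left₀ (by norm_num) (by positivity) e2
    refine e3.trans ?_
    have : 0 < D ^ 50 * a ^ 35 * b ^ 50 := by positivity
    nlinarith
  · right; left
    have e2 : H ^ 8 ≤ 256 * D ^ 240 * (p ^ 4 * r ^ 4) * b ^ 240 := by
      calc H ^ 8 = (H ^ 2) ^ 4 := by ring
        _ ≤ (4 * (D ^ 60 * (p * r * b ^ 60))) ^ 4 := pow_le_pow_left₀ (by positivity) h1 4
        _ = _ := by ring
    have e3 : H ^ 8 ≤ 256 * D ^ 240 * ((a ^ 60) ^ 3 * (L * H ^ 3)) * b ^ 240 := by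
      refine e2.trans ?_
      refine mul_le_mul_of_nonneg_right (mul_le_mul_of_nonneg_left ?_ (by positivity))
        (by positivity)
      exact mul_le_mul hp hr (by positivity) (by positivity)
    have e4 : H ^ 5 ≤ 256 * L * (D ^ 48 * a ^ 36 * b ^ 48) ^ 5 := by
      have : H ^ 5 * H ^ 3 ≤ (256 * L * (D ^ 48 * a ^ 36 * b ^ 48) ^ 5) * H ^ 3 := by
        calc H ^ 5 * H ^ 3 = H ^ 8 := by ring
          _ ≤ _ := e3
          _ = _ := by ring
      exact le_of_mul_le_mul_right this (by positivity)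
    refine le_of_pow_le_pow_left₀ (n := 5) (by norm_num) (by positivity) ?_
    rw [mul_pow]
    exact e4.trans (mul_le_mul_of_nonneg_right hl1 (by positivity))
  · right; right
    have e2 : H ^ 8 ≤ 256 * D ^ 240 * (q ^ 4 * r ^ 4) * a ^ 240 := by
      calc H ^ 8 = (H ^ 2) ^ 4 := by ring
        _ ≤ (4 * (D ^ 60 * (q * r * a ^ 60))) ^ 4 := pow_le_pow_left₀ (by positivity) h1 4
        _ = _ := by ring
    have e3 : H ^ 8 ≤ 256 * D ^ 240 * (b ^ 200 / (D ^ 40 * a ^ 40) * (L * H ^ 3)) * a ^ 240 := by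
      refine e2.trans ?_
      refine mul_le_mul_of_nonneg_right (mul_le_mul_of_nonneg_left ?_ (by positivity))
        (by positivity)
      exact mul_le_mul hq' hr (by positivity) (by positivity)
    have e4 : H ^ 5 ≤ 256 * L * (D ^ 40 * a ^ 40 * b ^ 40) ^ 5 := by
      have : H ^ 5 * H ^ 3 ≤ (256 * L * (D ^ 40 * a ^ 40 * b ^ 40) ^ 5) * H ^ 3 := by
        calc H ^ 5 * H ^ 3 = H ^ 8 := by ring
          _ ≤ _ := e3
          _ = _ := by field_simp
      exact le_of_mul_le_mul_right this (by positivity)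
    refine le_of_pow_le_pow_left₀ (n := 5) (by norm_num) (by positivity) ?_
    rw [mul_pow]
    exact e4.trans (mul_le_mul_of_nonneg_right hl1 (by positivity))
  · right; right
    have e1 : H ≤ 4 * (L * (lam⁻¹ * b ^ 60)) := by
      have : H * H ≤ 4 * (L * (lam⁻¹ * b ^ 60)) * H := by nlinarith
      exact le_of_mul_le_mul_right this hpos
    refine e1.trans (le_of_eq ?_)
    rw [hlam]
    field_simp

/-! ### The rpow form -/

/-- the bound of one column: `n` is the energy of `a`, `E` the energy of the pivot copy -/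
def col3 (d n E : ℝ) : ℝ :=
  d ^ (5 / 3 : ℝ) * (n ^ (7 / 12 : ℝ) * E ^ (5 / 6 : ℝ)) +
    d ^ (8 / 5 : ℝ) * (n ^ (3 / 5 : ℝ) * E ^ (4 / 5 : ℝ)) +
    d ^ (4 / 3 : ℝ) * (n ^ (2 / 3 : ℝ) * E ^ (2 / 3 : ℝ))

theorem col3_nonneg {d n E : ℝ} (hd : 0 ≤ d) (hn : 0 ≤ n) (hE : 0 ≤ E) : 0 ≤ col3 d n E := by
  unfold col3; positivity

theorem rpow_root {x : ℝ} (hx : 0 ≤ x) (r : ℝ) (m k : ℕ) (hm : m ≠ 0) (hr : r = k / m) :
    x ^ r = (x ^ (1 / m : ℝ)) ^ k := by
  rw [← Real.rpow_natCast, ← Real.rpow_mul hx, hr]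
  congr 1
  have : (m : ℝ) ≠ 0 := by exact_mod_cast hm
  field_simp

theorem eq_zero_of_avg_le {X : Type*} {Q : Finset X} {f : X → ℝ} (hf : ∀ x ∈ Q, 0 ≤ f x)
    (h : avg Q f ≤ 0) {x : X} (hx : x ∈ Q) : f x = 0 := by
  have hc : (0 : ℝ) < Q.card := by exact_mod_cast Finset.card_pos.2 ⟨x, hx⟩
  have h1 : ∑ y ∈ Q, f y ≤ 0 := by
    unfold avg at h
    by_contra hcon
    push Not at hcon
    have : 0 < (Q.card : ℝ)⁻¹ * ∑ y ∈ Q, f y := mul_pos (inv_pos.2 hc) hcon
    linarith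
  have h2 : f x ≤ ∑ y ∈ Q, f y := Finset.single_le_sum hf hx
  exact le_antisymm (h2.trans h1) (hf x hx)

/-- **U4 in the pair weight, one column**: all heights, no spectral projection. -/
theorem u4P_center {d L : ℝ} (hd : 0 < d) (hL : 1 ≤ L) {A B C : Finset ℤ}
    {G : ℤ × ℤ × ℤ → ℝ} (hU : UnifB d A B C G)
    (h1 : ∀ y ∈ B, ∀ z ∈ C, (avg A fun x => G (x, y, z) ^ 2) ≤ L)
    (h2 : ∀ x ∈ A, ∀ z ∈ C, (avg B fun y => G (x, y, z) ^ 2) ≤ L)
    {c : ℤ} (hc : c ∈ B) (a : ℤ → ℤ → ℝ) (b : ℤ → ℝ)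
    (ha : ∀ y ∈ B, ∀ x ∈ A, |a y x| ≤ 1) (hb : ∀ x ∈ A, |b x| ≤ 1) {n E : ℝ}
    (hn : (avg B fun y => avg A fun x => a y x ^ 2) ≤ n)
    (hE : (avg A fun x => avg C fun z => (b x * G (x, c, z)) ^ 2) ≤ E) :
    (avg B fun y => avg C fun z => colM A G c a b y z ^ 2) ≤ 16 * L ^ 2 * col3 d n E := by
  have hn0 : 0 ≤ n := (avg_nonneg fun _ _ => avg_nonneg fun _ _ => sq_nonneg _).trans hn
  have hE0 : 0 ≤ E := (avg_nonneg fun _ _ => avg_nonneg fun _ _ => sq_nonneg _).trans hE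
  have hL0 : 0 ≤ L := by linarith
  have hrhs : 0 ≤ 16 * L ^ 2 * col3 d n E := mul_nonneg (by positivity) (col3_nonneg hd.le hn0 hE0)
  set P : ℝ := avg B fun y => avg C fun z => colM A G c a b y z ^ 2 with hP
  have hP0 : 0 ≤ P := avg_nonneg fun _ _ => avg_nonneg fun _ _ => sq_nonneg _
  rcases hn0.eq_or_lt with hnz | hnpos
  · have hz : ∀ y ∈ B, ∀ x ∈ A, a y x = 0 := by
      intro y hy x hx
      have e1 := eq_zero_of_avg_le (Q := B) (fun y _ => avg_nonneg fun _ _ => sq_nonneg _)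
        (hn.trans hnz.symm.le) hy
      have e2 := eq_zero_of_avg_le (Q := A) (f := fun x => a y x ^ 2) (fun _ _ => sq_nonneg _)
        e1.le hx
      exact pow_eq_zero_iff (two_ne_zero) |>.1 e2
    have : P ≤ 0 := by
      rw [hP]
      refine le_trans (avg_mono fun y hy => avg_mono fun z _ => (?_ : _ ≤ (0 : ℝ))) ?_
      · have : colM A G c a b y z = 0 := by
          unfold colM
          rw [avg_congr (g := fun _ => 0) fun x hx => by rw [hz y hy x hx]; ring]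
          simp [avg]
        rw [this]; norm_num
      · simp [avg]
    exact this.trans hrhs
  rcases hE0.eq_or_lt with hEz | hEpos
  · have hz : ∀ x ∈ A, ∀ z ∈ C, b x * G (x, c, z) = 0 := by
      intro x hx z hz
      have e1 := eq_zero_of_avg_le (Q := A) (fun y _ => avg_nonneg fun _ _ => sq_nonneg _)
        (hE.trans hEz.symm.le) hx
      have e2 := eq_zero_of_avg_le (Q := C) (f := fun z => (b x * G (x, c, z)) ^ 2)
        (fun _ _ => sq_nonneg _) e1.le hz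
      exact pow_eq_zero_iff (two_ne_zero) |>.1 e2
    have : P ≤ 0 := by
      rw [hP]
      refine le_trans (avg_mono fun y hy => avg_mono fun z hzC => (?_ : _ ≤ (0 : ℝ))) ?_
      · have : colM A G c a b y z = 0 := by
          unfold colM
          rw [avg_congr (g := fun _ => 0) fun x hx => by
            rw [show a y x * b x * (G (x, y, z) * G (x, c, z)) =
              a y x * G (x, y, z) * (b x * G (x, c, z)) by ring, hz x hx z hzC]; ring]
          simp [avg]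
        rw [this]; norm_num
      · simp [avg]
    exact this.trans hrhs
  -- the roots
  set D : ℝ := d ^ (1 / (60 : ℕ) : ℝ) with hD
  set α : ℝ := n ^ (1 / (120 : ℕ) : ℝ) with hα
  set β : ℝ := E ^ (1 / (120 : ℕ) : ℝ) with hβ
  have hDp : 0 < D := Real.rpow_pos_of_pos hd _
  have hαp : 0 < α := Real.rpow_pos_of_pos hnpos _
  have hβp : 0 < β := Real.rpow_pos_of_pos hEpos _
  have dD : d = D ^ 60 := by
    rw [hD, ← rpow_root hd.le 1 60 60 (by norm_num) (by norm_num), Real.rpow_one]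
  have nα : n = (α ^ 60) ^ 2 := by
    rw [← pow_mul, hα, ← rpow_root hnpos.le 1 120 120 (by norm_num) (by norm_num), Real.rpow_one]
  have Eβ : E = (β ^ 60) ^ 2 := by
    rw [← pow_mul, hβ, ← rpow_root hEpos.le 1 120 120 (by norm_num) (by norm_num), Real.rpow_one]
  have hlam : 0 < β ^ 20 / (D ^ 40 * α ^ 40) := by positivity
  have hH : (√P) ^ 2 = avg B fun y => avg C fun z => colM A G c a b y z ^ 2 := Real.sq_sqrt hP0
  obtain ⟨p, q, r, _, _, _, hp, hq, hr, hmain⟩ :=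
    u4P_raw hd.le hL0 hlam hU h1 h2 hc a b ha hb (al := α ^ 60) (de := β ^ 60) (H := √P)
      (by positivity) (by positivity) (Real.sqrt_nonneg _) (hn.trans nα.le) (hE.trans Eβ.le) hH
  have hnum := u4P_num hDp hαp hβp hL (Real.sqrt_nonneg P) rfl hp hq hr
    (by rw [← dD]; exact hmain)
  have t1 : (D ^ 50 * α ^ 35 * β ^ 50) ^ 2 =
      d ^ (5 / 3 : ℝ) * (n ^ (7 / 12 : ℝ) * E ^ (5 / 6 : ℝ)) := by
    rw [rpow_root hd.le (5 / 3) 60 100 (by norm_num) (by norm_num),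
      rpow_root hnpos.le (7 / 12) 120 70 (by norm_num) (by norm_num),
      rpow_root hEpos.le (5 / 6) 120 100 (by norm_num) (by norm_num), ← hD, ← hα, ← hβ]
    ring
  have t2 : (D ^ 48 * α ^ 36 * β ^ 48) ^ 2 =
      d ^ (8 / 5 : ℝ) * (n ^ (3 / 5 : ℝ) * E ^ (4 / 5 : ℝ)) := by
    rw [rpow_root hd.le (8 / 5) 60 96 (by norm_num) (by norm_num),
      rpow_root hnpos.le (3 / 5) 120 72 (by norm_num) (by norm_num),
      rpow_root hEpos.le (4 / 5) 120 96 (by norm_num) (by norm_num), ← hD, ← hα, ← hβ]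
    ring
  have t3 : (D ^ 40 * α ^ 40 * β ^ 40) ^ 2 =
      d ^ (4 / 3 : ℝ) * (n ^ (2 / 3 : ℝ) * E ^ (2 / 3 : ℝ)) := by
    rw [rpow_root hd.le (4 / 3) 60 80 (by norm_num) (by norm_num),
      rpow_root hnpos.le (2 / 3) 120 80 (by norm_num) (by norm_num),
      rpow_root hEpos.le (2 / 3) 120 80 (by norm_num) (by norm_num), ← hD, ← hα, ← hβ]
    ring
  have key : ∀ T : ℝ, 0 ≤ T → √P ≤ 4 * L * T → T ^ 2 ≤ col3 d n E →
      P ≤ 16 * L ^ 2 * col3 d n E := by
    intro T hT hPT hTc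
    calc P = (√P) ^ 2 := (Real.sq_sqrt hP0).symm
      _ ≤ (4 * L * T) ^ 2 := pow_le_pow_left₀ (Real.sqrt_nonneg _) hPT 2
      _ = 16 * L ^ 2 * T ^ 2 := by ring
      _ ≤ _ := mul_le_mul_of_nonneg_left hTc (by positivity)
  have s1 : 0 ≤ d ^ (5 / 3 : ℝ) * (n ^ (7 / 12 : ℝ) * E ^ (5 / 6 : ℝ)) := by positivity
  have s2 : 0 ≤ d ^ (8 / 5 : ℝ) * (n ^ (3 / 5 : ℝ) * E ^ (4 / 5 : ℝ)) := by positivity
  have s3 : 0 ≤ d ^ (4 / 3 : ℝ) * (n ^ (2 / 3 : ℝ) * E ^ (2 / 3 : ℝ)) := by positivity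
  rcases hnum with h | h | h
  · exact key _ (by positivity) h (by rw [t1]; unfold col3; linarith)
  · exact key _ (by positivity) h (by rw [t2]; unfold col3; linarith)
  · exact key _ (by positivity) h (by rw [t3]; unfold col3; linarith)

/-! ### Vector valued edges -/

section vector

variable {V : Type*} [NormedAddCommGroup V] [InnerProductSpace ℝ V]

/-- the indicator of the support of the column `c` -/
def sup1 (u : ℤ → ℤ → V) (c x : ℤ) : ℝ := if ‖u x c‖ = 0 then 0 else 1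

/-- the column matrix of a vector valued edge is a column matrix of scalars -/
theorem colM_vec (A : Finset ℤ) (G : ℤ × ℤ × ℤ → ℝ) (u : ℤ → ℤ → V) (c y z : ℤ) :
    colM A G c (fun y x => inner ℝ (u x y) (‖u x c‖⁻¹ • u x c)) (fun x => ‖u x c‖) y z =
      avg A fun x => inner ℝ (u x y) (u x c) * (G (x, y, z) * G (x, c, z)) := by
  unfold colM
  refine avg_congr fun x _ => ?_
  show inner ℝ (u x y) (‖u x c‖⁻¹ • u x c) * ‖u x c‖ * (G (x, y, z) * G (x, c, z)) = _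
  by_cases h0 : ‖u x c‖ = 0
  · rw [h0, norm_eq_zero.1 h0, inner_zero_right]; ring
  · rw [inner_smul_right]
    field_simp

/-- **(U4) in the pair weight**, one column, vector valued edge `u`, `‖u‖ ≤ 1`, potential `U`. -/
theorem u4P_vec {d L : ℝ} (hd : 0 < d) (hL : 1 ≤ L) {A B C : Finset ℤ}
    {G : ℤ × ℤ × ℤ → ℝ} (hU : UnifB d A B C G)
    (h1 : ∀ y ∈ B, ∀ z ∈ C, (avg A fun x => G (x, y, z) ^ 2) ≤ L)
    (h2 : ∀ x ∈ A, ∀ z ∈ C, (avg B fun y => G (x, y, z) ^ 2) ≤ L)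
    (h3 : ∀ x ∈ A, ∀ y ∈ B, (avg C fun z => G (x, y, z) ^ 2) ≤ L)
    (u : ℤ → ℤ → V) (hu : ∀ x ∈ A, ∀ y ∈ B, ‖u x y‖ ≤ 1) {w : ℝ} (hw : 0 ≤ w)
    (hop : ∀ x ∈ A, ∀ v : V, (avg B fun y => (inner ℝ (u x y) v) ^ 2) ≤ w * ‖v‖ ^ 2)
    {c : ℤ} (hc : c ∈ B) :
    (avg B fun y => avg C fun z =>
      (avg A fun x => inner ℝ (u x y) (u x c) * (G (x, y, z) * G (x, c, z))) ^ 2) ≤
      16 * L ^ 2 * col3 d (w * avg A (sup1 u c)) (L * avg A fun x => ‖u x c‖ ^ 2) := by
  have hnorm : ∀ x, ‖(‖u x c‖⁻¹ • u x c)‖ ≤ 1 := by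
    intro x
    by_cases h0 : ‖u x c‖ = 0
    · rw [h0]; simp
    · rw [norm_smul, norm_inv, norm_norm, inv_mul_cancel₀ h0]
  have key := u4P_center (n := w * avg A (sup1 u c)) (E := L * avg A fun x => ‖u x c‖ ^ 2)
    hd hL hU h1 h2 hc (fun y x => inner ℝ (u x y) (‖u x c‖⁻¹ • u x c)) (fun x => ‖u x c‖)
    (fun y hy x hx => by
      refine (abs_real_inner_le_norm _ _).trans ?_
      calc ‖u x y‖ * ‖(‖u x c‖⁻¹ • u x c)‖ ≤ 1 * 1 :=
            mul_le_mul (hu x hx y hy) (hnorm x) (norm_nonneg _) zero_le_one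
        _ = 1 := mul_one _)
    (fun x hx => by rw [abs_norm]; exact hu x hx c hc)
    (by
      rw [avg_comm, ← avg_mul_left]
      refine avg_mono fun x hx => ?_
      refine (hop x hx _).trans (mul_le_mul_of_nonneg_left ?_ hw)
      unfold sup1
      split_ifs with h0
      · rw [h0, inv_zero, zero_smul, norm_zero]; norm_num
      · exact pow_le_one₀ (norm_nonneg _) (hnorm x))
    (by
      rw [← avg_mul_left]
      refine avg_mono fun x hx => ?_
      have e1 : (avg C fun z => (‖u x c‖ * G (x, c, z)) ^ 2) =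
          ‖u x c‖ ^ 2 * avg C fun z => G (x, c, z) ^ 2 := by
        rw [← avg_mul_left]
        exact avg_congr fun z _ => by ring
      rw [e1, mul_comm]
      exact mul_le_mul_of_nonneg_right (h3 x hx c hc) (sq_nonneg _))
  refine le_trans (le_of_eq ?_) key
  refine avg_congr fun y _ => avg_congr fun z _ => ?_
  rw [colM_vec]

/-- the three powers after the sum over the columns -/
def u4T (d w M : ℝ) : ℝ :=
  d ^ (5 / 3 : ℝ) * (w ^ (7 / 12 : ℝ) * M ^ (5 / 12 : ℝ)) +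
    d ^ (8 / 5 : ℝ) * (w ^ (3 / 5 : ℝ) * M ^ (2 / 5 : ℝ)) +
    d ^ (4 / 3 : ℝ) * (w ^ (2 / 3 : ℝ) * M ^ (1 / 3 : ℝ))

theorem u4T_nonneg {d w M : ℝ} (hd : 0 ≤ d) (hw : 0 ≤ w) (hM : 0 ≤ M) : 0 ≤ u4T d w M := by
  unfold u4T; positivity

theorem pow_pair {w L m M K r s : ℝ} (hw : 0 ≤ w) (hL : 1 ≤ L) (hK : 1 ≤ K) (hm : 0 ≤ m)
    (hmM : m ≤ M) (hr0 : 0 < r) (hr : r ≤ 1) (hs : s ≤ 1) (hrs : 1 ≤ r + s) :
    (w * (K * m)) ^ r * (L * m) ^ s ≤ K * L * (w ^ r * M ^ (r + s - 1)) * m := by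
  have hL0 : 0 ≤ L := by linarith
  have hK0 : 0 ≤ K := by linarith
  have hM : 0 ≤ M := hm.trans hmM
  rcases hm.eq_or_lt with h0 | hpos
  · rw [← h0]
    simp only [mul_zero]
    rw [Real.zero_rpow hr0.ne']
    simp
  rw [Real.mul_rpow hw (mul_nonneg hK0 hm), Real.mul_rpow hK0 hm, Real.mul_rpow hL0 hm]
  have e1 : K ^ r ≤ K := by
    calc K ^ r ≤ K ^ (1 : ℝ) := Real.rpow_le_rpow_of_exponent_le hK hr
      _ = K := Real.rpow_one K
  have e2 : L ^ s ≤ L := by
    calc L ^ s ≤ L ^ (1 : ℝ) := Real.rpow_le_rpow_of_exponent_le hL hs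
      _ = L := Real.rpow_one L
  have e3 : m ^ r * m ^ s ≤ M ^ (r + s - 1) * m := by
    have : m ^ r * m ^ s = m ^ (r + s - 1) * m := by
      rw [← Real.rpow_add hpos]
      nth_rewrite 3 [← Real.rpow_one m]
      rw [← Real.rpow_add hpos]
      congr 1; ring
    rw [this]
    exact mul_le_mul_of_nonneg_right (Real.rpow_le_rpow hm hmM (by linarith)) hm
  have n1 : 0 ≤ K ^ r := Real.rpow_nonneg hK0 _
  have n2 : 0 ≤ L ^ s := Real.rpow_nonneg hL0 _
  have n3 : 0 ≤ w ^ r := Real.rpow_nonneg hw _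
  have n4 : 0 ≤ m ^ r * m ^ s := mul_nonneg (Real.rpow_nonneg hm _) (Real.rpow_nonneg hm _)
  calc w ^ r * (K ^ r * m ^ r) * (L ^ s * m ^ s)
      = (K ^ r * L ^ s) * w ^ r * (m ^ r * m ^ s) := by ring
    _ ≤ (K * L) * w ^ r * (M ^ (r + s - 1) * m) := by
        refine mul_le_mul (mul_le_mul_of_nonneg_right (mul_le_mul e1 e2 n2 hK0) n3) e3 n4 ?_
        positivity
    _ = _ := by ring

/-- **(U4) in the pair weight**, sum over the columns, flat edge: the support of every column is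
at most `K` times its mass, masses of the columns at most `M`. -/
theorem u4P {d L K : ℝ} (hd : 0 < d) (hL : 1 ≤ L) (hK : 1 ≤ K) {A B C : Finset ℤ}
    {G : ℤ × ℤ × ℤ → ℝ} (hU : UnifB d A B C G)
    (h1 : ∀ y ∈ B, ∀ z ∈ C, (avg A fun x => G (x, y, z) ^ 2) ≤ L)
    (h2 : ∀ x ∈ A, ∀ z ∈ C, (avg B fun y => G (x, y, z) ^ 2) ≤ L)
    (h3 : ∀ x ∈ A, ∀ y ∈ B, (avg C fun z => G (x, y, z) ^ 2) ≤ L)
    (u : ℤ → ℤ → V) (hu : ∀ x ∈ A, ∀ y ∈ B, ‖u x y‖ ≤ 1) {w M : ℝ} (hw : 0 ≤ w)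
    (hop : ∀ x ∈ A, ∀ v : V, (avg B fun y => (inner ℝ (u x y) v) ^ 2) ≤ w * ‖v‖ ^ 2)
    (hfl : ∀ c ∈ B, avg A (sup1 u c) ≤ K * avg A fun x => ‖u x c‖ ^ 2)
    (hM : ∀ c ∈ B, (avg A fun x => ‖u x c‖ ^ 2) ≤ M) :
    (avg B fun c => avg B fun y => avg C fun z =>
      (avg A fun x => inner ℝ (u x y) (u x c) * (G (x, y, z) * G (x, c, z))) ^ 2) ≤
      16 * K * L ^ 3 * u4T d w M * avg B fun c => avg A fun x => ‖u x c‖ ^ 2 := by
  rw [← avg_mul_left]
  refine avg_mono fun c hc => (u4P_vec hd hL hU h1 h2 h3 u hu hw hop hc).trans ?_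
  set m : ℝ := avg A fun x => ‖u x c‖ ^ 2 with hm
  have hm0 : 0 ≤ m := avg_nonneg fun _ _ => sq_nonneg _
  have hs0 : 0 ≤ avg A (sup1 u c) := avg_nonneg fun x _ => by unfold sup1; split_ifs <;> norm_num
  have hL0 : 0 ≤ L := by linarith
  have hK0 : 0 ≤ K := by linarith
  have hmM : m ≤ M := hM c hc
  have hM0 : 0 ≤ M := hm0.trans hmM
  have hn : w * avg A (sup1 u c) ≤ w * (K * m) := mul_le_mul_of_nonneg_left (hfl c hc) hw
  have hmono : col3 d (w * avg A (sup1 u c)) (L * m) ≤ col3 d (w * (K * m)) (L * m) := by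
    unfold col3
    have hws : 0 ≤ w * avg A (sup1 u c) := mul_nonneg hw hs0
    have g : ∀ r : ℝ, 0 ≤ r → (w * avg A (sup1 u c)) ^ r ≤ (w * (K * m)) ^ r :=
      fun r hr => Real.rpow_le_rpow hws hn hr
    have g1 := g (7 / 12) (by norm_num)
    have g2 := g (3 / 5) (by norm_num)
    have g3 := g (2 / 3) (by norm_num)
    have hLm : 0 ≤ L * m := mul_nonneg hL0 hm0
    gcongr
  have q1 := pow_pair (w := w) (L := L) (K := K) hw hL hK hm0 hmM (r := 7 / 12) (s := 5 / 6)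
    (by norm_num) (by norm_num) (by norm_num) (by norm_num)
  have q2 := pow_pair (w := w) (L := L) (K := K) hw hL hK hm0 hmM (r := 3 / 5) (s := 4 / 5)
    (by norm_num) (by norm_num) (by norm_num) (by norm_num)
  have q3 := pow_pair (w := w) (L := L) (K := K) hw hL hK hm0 hmM (r := 2 / 3) (s := 2 / 3)
    (by norm_num) (by norm_num) (by norm_num) (by norm_num)
  norm_num at q1 q2 q3
  have hfin : col3 d (w * (K * m)) (L * m) ≤ K * L * u4T d w M * m := by
    unfold col3 u4T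
    have d1 : 0 ≤ d ^ (5 / 3 : ℝ) := Real.rpow_nonneg hd.le _
    have d2 : 0 ≤ d ^ (8 / 5 : ℝ) := Real.rpow_nonneg hd.le _
    have d3 : 0 ≤ d ^ (4 / 3 : ℝ) := Real.rpow_nonneg hd.le _
    have r1 := mul_le_mul_of_nonneg_left q1 d1
    have r2 := mul_le_mul_of_nonneg_left q2 d2
    have r3 := mul_le_mul_of_nonneg_left q3 d3
    calc _ ≤ d ^ (5 / 3 : ℝ) * (K * L * (w ^ (7 / 12 : ℝ) * M ^ (5 / 12 : ℝ)) * m) +
          d ^ (8 / 5 : ℝ) * (K * L * (w ^ (3 / 5 : ℝ) * M ^ (2 / 5 : ℝ)) * m) +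
          d ^ (4 / 3 : ℝ) * (K * L * (w ^ (2 / 3 : ℝ) * M ^ (1 / 3 : ℝ)) * m) :=
          add_le_add (add_le_add r1 r2) r3
      _ = _ := by ring
  calc 16 * L ^ 2 * col3 d (w * avg A (sup1 u c)) (L * m)
      ≤ 16 * L ^ 2 * (K * L * u4T d w M * m) :=
        mul_le_mul_of_nonneg_left (hmono.trans hfin) (by positivity)
    _ = _ := by ring

end vector

end

end Vale.Agent.P141.H703
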